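import Mathlib

/-!
Definitions for P183: finite algebras, congruences, representable lattices,
lower bounded lattices.
-/

namespace Vale.Agent.P183

/-- An equivalence relation is compatible with a finitary operation. -/
def Compat {A : Type*} {k : ℕ} (f : (Fin k → A) → A) (s : Setoid A) : Prop :=
  ∀ x y : Fin k → A, (∀ i, s.r (x i) (y i)) → s.r (f x) (f y)

/-- A congruence of the algebra with carrier `A` and the finite list of operations `op`. -/
def IsCongruence {A : Type*} {n : ℕ} {ar : Fin n → ℕ}
    (op : ∀ i, (Fin (ar i) → A) → A) (s : Setoid A) : Prop :=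
  ∀ i, Compat (op i) s

/-- `L` is isomorphic to the whole congruence lattice of a nonempty finite algebra. -/
def Representable (L : Type) [LE L] : Prop :=
  ∃ (A : Type) (_ : Finite A) (_ : Nonempty A) (n : ℕ) (ar : Fin n → ℕ)
    (op : ∀ i, (Fin (ar i) → A) → A),
    Nonempty (L ≃o {s : Setoid A // IsCongruence op s})

/-- The join dependency relation `D` on join-irreducible elements:
`p ≤ q ⊔ x` for some `x` such that `q` cannot be lowered. -/
def JoinDep {L : Type*} [Lattice L] (p q : L) : Prop :=
  SupIrred p ∧ SupIrred q ∧ p ≠ q ∧ ∃ x, p ≤ q ⊔ x ∧ ∀ y, y < q → ¬ p ≤ y ⊔ x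

/-- A finite lattice is lower bounded iff it has no `D`-cycle. -/
def LowerBounded (L : Type*) [Lattice L] : Prop :=
  ∀ p : L, ¬ Relation.TransGen (JoinDep (L := L)) p p

end Vale.Agent.P183

namespace Vale.Agent.P183

/-- The elements of `L` which are joins of members of `J`, with the induced order. -/
abbrev SpanOf {L : Type} [Lattice L] (J : Set L) : Type :=
  {a : L // IsLUB {q | q ∈ J ∧ q ≤ a} a}

/-- Every join-irreducible element is `D`-depended upon by some element. -/
def SourceFree (L : Type) [Lattice L] : Prop :=
  ∀ p : L, SupIrred p → ∃ q, JoinDep q p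

end Vale.Agent.P183
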