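import Mathlib
import Vale.Agent.P183.Defs

namespace Vale.Agent.P183

open Function

/-- An equivalence preserved by all translations of an operation is compatible with it. -/
theorem compat_of_update {A : Type*} {k : ℕ} (f : (Fin k → A) → A) (s : Setoid A)
    (h : ∀ (x : Fin k → A) (j : Fin k) (a b : A), s.r a b →
      s.r (f (update x j a)) (f (update x j b))) : Compat f s := by
  classical
  intro x y hxy
  have key : ∀ T : Finset (Fin k), s.r (f x) (f (fun i => if i ∈ T then y i else x i)) := by
    intro T
    induction T using Finset.induction_on with
    | empty => simpa using s.iseqv.refl (f x)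
    | @insert j T hj ih =>
      refine s.iseqv.trans ih ?_
      have := h (fun i => if i ∈ T then y i else x i) j _ _ (hxy j)
      have e1 : update (fun i => if i ∈ T then y i else x i) j (x j) =
          fun i => if i ∈ T then y i else x i := by
        funext i
        by_cases hi : i = j
        · subst hi; simp [hj]
        · simp [hi]
      have e2 : update (fun i => if i ∈ T then y i else x i) j (y j) =
          fun i => if i ∈ insert j T then y i else x i := by
        funext i
        by_cases hi : i = j
        · subst hi; simp
        · simp [hi]
      rw [e1, e2] at this
      exact this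
  simpa using key Finset.univ

/-- A finite family of operations indexed by any finite type gives a representation. -/
theorem representable_of_family {L : Type} [LE L] {A : Type} [Finite A] [Nonempty A]
    {ι : Type} [Finite ι] (ar : ι → ℕ) (op : ∀ i, (Fin (ar i) → A) → A)
    (e : L ≃o {s : Setoid A // ∀ i, Compat (op i) s}) : Representable L := by
  obtain ⟨m, ⟨eq⟩⟩ := Finite.exists_equiv_fin ι
  have hiff : ∀ s : Setoid A, (∀ i, Compat (op i) s) ↔
      IsCongruence (fun j => op (eq.symm j)) s := by
    intro s
    constructor
    · intro h j; exact h _
    · intro h i
      obtain ⟨j, rfl⟩ := eq.symm.surjective i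
      exact h j
  refine ⟨A, inferInstance, inferInstance, m, fun j => ar (eq.symm j),
    fun j => op (eq.symm j), ⟨e.trans ?_⟩⟩
  exact
    { toFun := fun s => ⟨s.1, (hiff _).1 s.2⟩
      invFun := fun s => ⟨s.1, (hiff _).2 s.2⟩
      left_inv := fun _ => rfl
      right_inv := fun _ => rfl
      map_rel_iff' := Iff.rfl }

end Vale.Agent.P183
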