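import Mathlib
import Vale.Agent.P183.Basic

/-!
Kurzweil's duality: the order dual of a representable lattice is representable.
The carrier is `(A → A₅)` modulo right multiplication by constants.
-/

namespace Vale.Agent.P183.Kurzweil

open Function

abbrev S : Type := alternatingGroup (Fin 5)

theorem exists_noncomm : ∃ s t : S, s * t * s⁻¹ * t⁻¹ ≠ 1 := by
  refine ⟨⟨Equiv.swap 0 1 * Equiv.swap 1 2, ?_⟩, ⟨Equiv.swap 0 3 * Equiv.swap 3 4, ?_⟩, ?_⟩
  · simp
  · simp
  · intro h
    have := congrArg (fun g : S => (g : Equiv.Perm (Fin 5)) 0) h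
    revert this
    decide

section Block

variable {X : Type} (K : Subgroup (X → S))

def Sep (i j : X) : Prop := ∀ g ∈ K, g i = g j

variable (hK : ∀ s : S, (fun _ : X => s) ∈ K)

/-- The values at `i` of the elements of `K` which are trivial on `F`. -/
def Nsub (i : X) (F : Finset X) : Subgroup S where
  carrier := {s | ∃ g ∈ K, g i = s ∧ ∀ j ∈ F, g j = 1}
  one_mem' := ⟨1, K.one_mem, rfl, fun _ _ => rfl⟩
  mul_mem' := by
    rintro a b ⟨g, hg, hga, hgF⟩ ⟨g', hg', hgb, hgF'⟩
    exact ⟨g * g', K.mul_mem hg hg', by simp [hga, hgb], fun j hj => by simp [hgF j hj, hgF' j hj]⟩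
  inv_mem' := by
    rintro a ⟨g, hg, hga, hgF⟩
    exact ⟨g⁻¹, K.inv_mem hg, by simp [hga], fun j hj => by simp [hgF j hj]⟩

include hK in
theorem Nsub_normal (i : X) (F : Finset X) : (Nsub K i F).Normal := by
  constructor
  rintro a ⟨g, hg, hga, hgF⟩ t
  refine ⟨(fun _ => t) * g * (fun _ => t)⁻¹, K.mul_mem (K.mul_mem (hK t) hg) (K.inv_mem (hK t)),
    by simp [hga], fun j hj => by simp [hgF j hj]⟩

include hK in
theorem Nsub_top (i : X) (F : Finset X) (hF : ∀ j ∈ F, ¬ Sep K i j) : Nsub K i F = ⊤ := by
  classical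
  induction F using Finset.induction_on with
  | empty =>
    exact Subgroup.eq_top_iff' _ |>.2 fun s => ⟨fun _ => s, hK s, rfl, by simp⟩
  | @insert j F hj ih =>
    have hF' := ih fun k hk => hF k (Finset.mem_insert_of_mem hk)
    have hsingle : Nsub K i {j} = ⊤ := by
      rcases (Nsub_normal K hK i {j}).eq_bot_or_eq_top with h | h
      · exfalso
        apply hF j (Finset.mem_insert_self _ _)
        intro g hg
        have hm : g i * (g j)⁻¹ ∈ Nsub K i {j} :=
          ⟨g * (fun _ => (g j)⁻¹), K.mul_mem hg (hK _), by simp, by simp⟩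
        rw [h, Subgroup.mem_bot] at hm
        exact mul_inv_eq_one.1 hm
      · exact h
    rcases (Nsub_normal K hK i (insert j F)).eq_bot_or_eq_top with h | h
    · exfalso
      obtain ⟨s, t, hst⟩ := exists_noncomm
      obtain ⟨g, hg, hgs, hgF⟩ : s ∈ Nsub K i F := by rw [hF']; trivial
      obtain ⟨g', hg', hgt, hgj⟩ : t ∈ Nsub K i {j} := by rw [hsingle]; trivial
      apply hst
      have hm : s * t * s⁻¹ * t⁻¹ ∈ Nsub K i (insert j F) := by
        refine ⟨g * g' * g⁻¹ * g'⁻¹,
          K.mul_mem (K.mul_mem (K.mul_mem hg hg') (K.inv_mem hg)) (K.inv_mem hg'),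
          by simp [hgs, hgt], fun k hk => ?_⟩
        rcases Finset.mem_insert.1 hk with rfl | hk
        · simp [hgj k (Finset.mem_singleton_self _)]
        · simp [hgF k hk]
      rw [h, Subgroup.mem_bot] at hm
      exact hm
    · exact h

include hK in
theorem mem_of_blockConst [Finite X] (u : X → S) (hu : ∀ i j, Sep K i j → u i = u j) :
    u ∈ K := by
  classical
  cases nonempty_fintype X
  have key : ∀ F : Finset X,
      (fun x => if ∃ f ∈ F, Sep K f x then u x else 1) ∈ K := by
    intro F
    induction F using Finset.induction_on with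
    | empty =>
      convert K.one_mem
      simp
    | @insert i F hi ih =>
      by_cases hin : ∃ f ∈ F, Sep K f i
      · convert ih using 1
        funext x
        obtain ⟨f, hf, hfi⟩ := hin
        have : (∃ f' ∈ insert i F, Sep K f' x) ↔ ∃ f' ∈ F, Sep K f' x := by
          constructor
          · rintro ⟨f', hf', h⟩
            rcases Finset.mem_insert.1 hf' with rfl | hf'
            · exact ⟨f, hf, fun g hg => (hfi g hg).trans (h g hg)⟩
            · exact ⟨f', hf', h⟩
          · rintro ⟨f', hf', h⟩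
            exact ⟨f', Finset.mem_insert_of_mem hf', h⟩
        simp only [this]
      · have hN := Nsub_top K hK i (Finset.univ.filter fun j => ¬ Sep K i j)
          (fun j hj => (Finset.mem_filter.1 hj).2)
        obtain ⟨g, hg, hgi, hgF⟩ : u i ∈ Nsub K i (Finset.univ.filter fun j => ¬ Sep K i j) := by
          rw [hN]; trivial
        convert K.mul_mem ih hg using 1
        funext x
        simp only [Pi.mul_apply]
        by_cases hx : Sep K i x
        · have h1 : ¬ ∃ f ∈ F, Sep K f x := by
            rintro ⟨f, hf, h⟩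
            exact hin ⟨f, hf, fun g hg => (h g hg).trans (hx g hg).symm⟩
          have h2 : ∃ f ∈ insert i F, Sep K f x := ⟨i, Finset.mem_insert_self _ _, hx⟩
          rw [if_neg h1, if_pos h2, one_mul, ← hx g hg, hgi, hu i x hx]
        · have : (∃ f ∈ insert i F, Sep K f x) ↔ ∃ f ∈ F, Sep K f x := by
            simp [hx]
          simp only [this, hgF x (Finset.mem_filter.2 ⟨Finset.mem_univ _, hx⟩), mul_one]
  have := key Finset.univ
  convert this using 1
  funext x
  rw [if_pos ⟨x, Finset.mem_univ _, fun _ _ => rfl⟩]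

end Block

theorem exists_homogeneous_dual {L : Type} [PartialOrder L] (hL : Representable L) :
    ∃ (Q : Type) (_ : Finite Q) (_ : Nonempty Q) (ι : Type) (_ : Finite ι) (ar : ι → ℕ)
      (ops : ∀ i, (Fin (ar i) → Q) → Q)
      (_ : Lᵒᵈ ≃o {r : Setoid Q // ∀ i, Compat (ops i) r}),
      ∀ u v : Q, ∃ g : Q ≃ Q, g u = v ∧
        ∀ r : Setoid Q, (∀ i, Compat (ops i) r) → ∀ x y, r.r x y →
          r.r (g x) (g y) ∧ r.r (g.symm x) (g.symm y) := by
  classical
  obtain ⟨A, hA, _, n, ar, op, ⟨e⟩⟩ := hL
  cases nonempty_fintype A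
  let H : Type := {h : A → A // ∀ s : Setoid A, IsCongruence op s → ∀ x y, s.r x y → s.r (h x) (h y)}
  let sQ : Setoid (A → S) :=
    { r := fun u v => ∃ d : S, ∀ i, u i * d = v i
      iseqv :=
        ⟨fun u => ⟨1, fun i => mul_one _⟩,
         fun ⟨d, hd⟩ => ⟨d⁻¹, fun i => by rw [← hd i]; simp⟩,
         fun ⟨d, hd⟩ ⟨d', hd'⟩ => ⟨d * d', fun i => by rw [← mul_assoc, hd i, hd' i]⟩⟩ }
  let Q := Quotient sQ
  let act : (A → S) ⊕ H → Q → Q := fun g =>
    match g with
    | Sum.inl g => Quotient.map (fun u => g * u)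
        (fun u v ⟨d, hd⟩ => ⟨d, fun i => by simp [← hd i, mul_assoc]⟩)
    | Sum.inr h => Quotient.map (fun u => u ∘ h.1)
        (fun u v ⟨d, hd⟩ => ⟨d, fun i => hd (h.1 i)⟩)
  let ops : ((A → S) ⊕ H) → (Fin 1 → Q) → Q := fun g x => act g (x 0)
  let ψ : Setoid A → Q → (A → A → S) := fun s =>
    Quotient.lift (fun u i j => if s.r i j then u i * (u j)⁻¹ else 1) (by
      rintro u v ⟨d, hd⟩
      funext i j
      simp only [← hd]
      split
      · simp [mul_assoc]
      · rfl)
  have hψ : ∀ s u v, (Setoid.ker (ψ s)).r (Quotient.mk sQ u) (Quotient.mk sQ v) ↔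
      ∀ i j, s.r i j → u i * (u j)⁻¹ = v i * (v j)⁻¹ := by
    intro s u v
    constructor
    · intro h i j hij
      have := congrFun (congrFun h i) j
      simpa [ψ, hij] using this
    · intro h
      show ψ s _ = ψ s _
      funext i j
      show (if s.r i j then _ else _) = (if s.r i j then _ else _)
      split
      · exact h i j ‹_›
      · rfl
  have hcompat : ∀ s : Setoid A, IsCongruence op s → ∀ g, Compat (ops g) (Setoid.ker (ψ s)) := by
    intro s hs g x y hxy
    have h := hxy 0
    show (Setoid.ker (ψ s)).r (act g (x 0)) (act g (y 0))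
    revert h
    generalize x 0 = a
    generalize y 0 = b
    induction a using Quotient.inductionOn with | h u => ?_
    induction b using Quotient.inductionOn with | h v => ?_
    intro h
    rw [hψ] at h
    rcases g with g | k
    · refine (hψ s (g * u) (g * v)).2 fun i j hij => ?_
      have := h i j hij
      simp only [Pi.mul_apply, mul_inv_rev]
      rw [mul_assoc, ← mul_assoc (u i), this]
      simp [mul_assoc]
    · refine (hψ s (u ∘ k.1) (v ∘ k.1)).2 fun i j hij => ?_
      exact h _ _ (k.2 s hs i j hij)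
  let f : Lᵒᵈ → {r : Setoid Q // ∀ g, Compat (ops g) r} := fun a =>
    ⟨Setoid.ker (ψ (e (OrderDual.ofDual a)).1), hcompat _ (e (OrderDual.ofDual a)).2⟩
  have hle : ∀ a b, f a ≤ f b ↔ a ≤ b := by
    intro a b
    rw [← OrderDual.ofDual_le_ofDual, ← e.le_iff_le]
    set s := e (OrderDual.ofDual a)
    set t := e (OrderDual.ofDual b)
    constructor
    · intro h i j hij
      by_contra hn
      obtain ⟨s0, t0, hst⟩ := exists_noncomm
      let w : S := s0 * t0 * s0⁻¹ * t0⁻¹
      let u : A → S := fun x => if s.1.r i x then w else 1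
      have h1 : (Setoid.ker (ψ s.1)).r (Quotient.mk sQ u) (Quotient.mk sQ 1) := by
        rw [hψ]
        intro p q hpq
        have : s.1.r i p ↔ s.1.r i q :=
          ⟨fun hp => s.1.iseqv.trans hp hpq, fun hq => s.1.iseqv.trans hq (s.1.iseqv.symm hpq)⟩
        simp [u, this]
      have h2 := (hψ t.1 u 1).1 (h h1) i j hij
      have hn' : ¬ s.1.r i j := hn
      simp [u, hn', s.1.iseqv.refl i] at h2
      exact hst h2
    · intro h
      intro p q
      induction p using Quotient.inductionOn with | h u => ?_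
      induction q using Quotient.inductionOn with | h v => ?_
      intro huv
      exact (hψ t.1 u v).2 fun i j hij => (hψ s.1 u v).1 huv i j (h hij)
  have hsurj : Surjective f := by
    rintro ⟨R, hR⟩
    have hR1 : ∀ g a b, R.r a b → R.r (act g a) (act g b) := fun g a b hab =>
      hR g (fun _ => a) (fun _ => b) (fun _ => hab)
    have hmul : ∀ (g u v : A → S), R.r (Quotient.mk sQ u) (Quotient.mk sQ v) →
        R.r (Quotient.mk sQ (g * u)) (Quotient.mk sQ (g * v)) :=
      fun g u v h => hR1 (Sum.inl g) _ _ h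
    let K : Subgroup (A → S) :=
      { carrier := {u | R.r (Quotient.mk sQ u) (Quotient.mk sQ 1)}
        one_mem' := R.iseqv.refl _
        mul_mem' := fun {u v} hu hv => by
          have := hmul u v 1 hv
          rw [mul_one] at this
          exact R.iseqv.trans this hu
        inv_mem' := fun {u} hu => by
          have := hmul u⁻¹ u 1 hu
          rw [mul_one, inv_mul_cancel] at this
          exact R.iseqv.symm this }
    have hmem : ∀ u, u ∈ K ↔ R.r (Quotient.mk sQ u) (Quotient.mk sQ 1) := fun _ => Iff.rfl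
    have hK : ∀ d : S, (fun _ : A => d) ∈ K := by
      intro d
      rw [hmem]
      have : Quotient.mk sQ (fun _ : A => d) = Quotient.mk sQ 1 :=
        Quotient.sound ⟨d⁻¹, fun i => by simp⟩
      rw [this]
    let π : Setoid A :=
      { r := Sep K
        iseqv := ⟨fun _ _ _ => rfl, fun h g hg => (h g hg).symm,
          fun h h' g hg => (h g hg).trans (h' g hg)⟩ }
    have hπh : ∀ k : H, ∀ i j, π.r i j → π.r (k.1 i) (k.1 j) := by
      intro k i j hij g hg
      exact hij (g ∘ k.1) (hR1 (Sum.inr k) _ _ hg)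
    have hπ : IsCongruence op π := by
      intro l
      refine compat_of_update (op l) π fun x m a b hab => ?_
      refine hπh ⟨fun z => op l (update x m z), ?_⟩ a b hab
      intro s hs p q hpq
      refine hs l _ _ fun i => ?_
      by_cases hi : i = m
      · subst hi; simpa using hpq
      · simpa [hi] using s.iseqv.refl (x i)
    refine ⟨OrderDual.toDual (e.symm ⟨π, hπ⟩), ?_⟩
    apply Subtype.ext
    show Setoid.ker (ψ (e (e.symm ⟨π, hπ⟩)).1) = R
    rw [OrderIso.apply_symm_apply]
    refine Setoid.ext fun p q => ?_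
    induction p using Quotient.inductionOn with | h u => ?_
    induction q using Quotient.inductionOn with | h v => ?_
    refine (hψ π u v).trans ?_
    have step : R.r (Quotient.mk sQ u) (Quotient.mk sQ v) ↔ u⁻¹ * v ∈ K := by
      rw [hmem]
      constructor
      · intro h
        have := hmul u⁻¹ u v h
        rw [inv_mul_cancel] at this
        exact R.iseqv.symm this
      · intro h
        have := hmul u _ _ h
        rw [mul_inv_cancel_left, mul_one] at this
        exact R.iseqv.symm this
    rw [show (R (Quotient.mk sQ u) (Quotient.mk sQ v)) ↔ u⁻¹ * v ∈ K from step]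
    have alg : ∀ i j, (u i * (u j)⁻¹ = v i * (v j)⁻¹) ↔ ((u⁻¹ * v) i = (u⁻¹ * v) j) := by
      intro i j
      simp only [Pi.mul_apply, Pi.inv_apply]
      constructor
      · intro h
        calc (u i)⁻¹ * v i = (u i)⁻¹ * (v i * (v j)⁻¹) * v j := by group
          _ = (u i)⁻¹ * (u i * (u j)⁻¹) * v j := by rw [h]
          _ = (u j)⁻¹ * v j := by group
      · intro h
        calc u i * (u j)⁻¹ = u i * ((u j)⁻¹ * v j) * (v j)⁻¹ := by group
          _ = u i * ((u i)⁻¹ * v i) * (v j)⁻¹ := by rw [h]
          _ = v i * (v j)⁻¹ := by group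
    constructor
    · intro h
      exact mem_of_blockConst K hK _ fun i j hij => (alg i j).1 (h i j hij)
    · intro h i j hij
      exact (alg i j).2 (hij _ h)
  have : Finite H := Subtype.finite
  have : Nonempty Q := ⟨Quotient.mk sQ 1⟩
  refine ⟨Q, inferInstance, inferInstance, (A → S) ⊕ H, inferInstance, fun _ => 1, ops,
    RelIso.ofSurjective (OrderEmbedding.ofMapLEIff f hle) hsurj, fun u v => ?_⟩
  induction u using Quotient.inductionOn with | h u => ?_
  induction v using Quotient.inductionOn with | h v => ?_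
  have hinv : ∀ (g g' : A → S), g * g' = 1 → ∀ q : Q, act (Sum.inl g) (act (Sum.inl g') q) = q := by
    intro g g' hg q
    induction q using Quotient.inductionOn with | h w => ?_
    show Quotient.mk sQ (g * (g' * w)) = Quotient.mk sQ w
    rw [← mul_assoc, hg, one_mul]
  refine ⟨⟨act (Sum.inl (v * u⁻¹)), act (Sum.inl (v * u⁻¹)⁻¹),
    hinv _ _ (inv_mul_cancel _), hinv _ _ (mul_inv_cancel _)⟩, ?_, ?_⟩
  · show Quotient.mk sQ (v * u⁻¹ * u) = Quotient.mk sQ v
    rw [inv_mul_cancel_right]
  · intro r hr x y hxy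
    exact ⟨hr (Sum.inl (v * u⁻¹)) (fun _ => x) (fun _ => y) (fun _ => hxy),
      hr (Sum.inl (v * u⁻¹)⁻¹) (fun _ => x) (fun _ => y) (fun _ => hxy)⟩

theorem representable_dual {L : Type} [PartialOrder L] (hL : Representable L) :
    Representable Lᵒᵈ := by
  obtain ⟨Q, _, _, ι, _, ar, ops, e, -⟩ := exists_homogeneous_dual hL
  exact representable_of_family ar ops e

end Vale.Agent.P183.Kurzweil
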