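import Mathlib
import Vale.Agent.P183.Basic

/-!
A finite lower bounded lattice is the dual of the congruence lattice of a finite algebra.
The points are the closed sets of the finite forest of unfolded minimal join covers.
-/

namespace Vale.Agent.P183.Tree

open Function

variable {L : Type} [Lattice L] [OrderBot L]

/-- A node: the root and the path, most recent step first. -/
abbrev Raw (L : Type) : Type := L × List (Finset L × L)

def lab : L → List (Finset L × L) → L
  | p, [] => p
  | _, (_, c) :: _ => c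

/-- A cover all whose members `p` depends on. -/
def Cov (p : L) (C : Finset L) : Prop :=
  (∀ c ∈ C, JoinDep p c) ∧ p ≤ C.sup id ∧ ∀ c ∈ C, ¬ p ≤ c

def Valid : L → List (Finset L × L) → Prop
  | p, [] => SupIrred p
  | p, (C, c) :: l => Valid p l ∧ Cov (lab p l) C ∧ c ∈ C

theorem valid_lab {p : L} : ∀ {l}, Valid p l → SupIrred (lab p l)
  | [], h => h
  | (_, _) :: _, ⟨_, hC, hc⟩ => (hC.1 _ hc).2.1

theorem cov_nonempty {p : L} {C : Finset L} (hp : SupIrred p) (hC : Cov p C) : C.Nonempty := by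
  rcases C.eq_empty_or_nonempty with rfl | h
  · exact absurd (le_bot_iff.1 (by simpa using hC.2.1)) hp.ne_bot
  · exact h

/-- Every join cover is refined by one along which `D` holds. -/
theorem exists_cov [Finite L] {p : L} (hp : SupIrred p) (s : Finset L)
    (hle : p ≤ s.sup id) (hn : ∀ a ∈ s, ¬ p ≤ a) :
    ∃ C, Cov p C ∧ ∀ c ∈ C, ∃ a ∈ s, c ≤ a := by
  classical
  cases nonempty_fintype L
  let P : Finset L → Prop := fun C =>
    (∀ c ∈ C, SupIrred c ∧ ∃ a ∈ s, c ≤ a) ∧ p ≤ C.sup id
  let down : Finset L → Finset L := fun C => Finset.univ.filter fun z => ∃ c ∈ C, z ≤ c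
  let N := Fintype.card L + 1
  let μ : Finset L → ℕ := fun C => (down C).card * N + C.card
  have hne : ((Finset.univ : Finset (Finset L)).filter P).Nonempty := by
    choose d hd hd' using fun a : L => exists_supIrred_decomposition a
    refine ⟨s.biUnion d, Finset.mem_filter.2 ⟨Finset.mem_univ _, fun c hc => ?_, hle.trans ?_⟩⟩
    · obtain ⟨a, ha, hca⟩ := Finset.mem_biUnion.1 hc
      exact ⟨hd' a hca, a, ha, (Finset.le_sup (f := id) hca).trans_eq (hd a)⟩
    · refine Finset.sup_le fun a ha => ?_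
      rw [id, ← hd a]
      exact Finset.sup_mono (Finset.subset_biUnion_of_mem d ha)
  obtain ⟨C, hCm, hmin⟩ := Finset.exists_min_image _ μ hne
  obtain ⟨hC, hCle⟩ := (Finset.mem_filter.1 hCm).2
  have hbad : ∀ C', P C' → μ C ≤ μ C' :=
    fun C' h => hmin C' (Finset.mem_filter.2 ⟨Finset.mem_univ _, h⟩)
  have hdownlt : ∀ C', down C' ⊂ down C → μ C' < μ C := by
    intro C' h
    have h1 := Finset.card_lt_card h
    have h2 : C'.card < N := Nat.lt_succ_of_le (Finset.card_le_univ _)
    have h3 : ((down C').card + 1) * N ≤ (down C).card * N := Nat.mul_le_mul_right _ h1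
    simp only [μ]
    rw [Nat.add_mul, one_mul] at h3
    omega
  have hirr : ∀ c ∈ C, ¬ p ≤ (C.erase c).sup id := by
    intro c hc hp'
    have hP : P (C.erase c) := ⟨fun e he => hC e (Finset.mem_of_mem_erase he), hp'⟩
    have h1 : (down (C.erase c)).card ≤ (down C).card := by
      refine Finset.card_le_card fun z hz => ?_
      obtain ⟨e, he, hze⟩ := (Finset.mem_filter.1 hz).2
      exact Finset.mem_filter.2 ⟨Finset.mem_univ _, e, Finset.mem_of_mem_erase he, hze⟩
    have h2 := Finset.card_erase_lt_of_mem hc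
    have h3 := hbad _ hP
    have h4 := Nat.mul_le_mul_right N h1
    simp only [μ] at h3
    omega
  refine ⟨C, ⟨fun c hc => ?_, hCle, fun c hc hpc => ?_⟩, fun c hc => (hC c hc).2⟩
  · obtain ⟨a, ha, hca⟩ := (hC c hc).2
    refine ⟨hp, (hC c hc).1, fun h => hn a ha (h ▸ hca), (C.erase c).sup id, ?_, ?_⟩
    · rw [show c ⊔ (C.erase c).sup id = C.sup id by
        conv_rhs => rw [← Finset.insert_erase hc, Finset.sup_insert, id]]
      exact hCle
    · intro y hy hpy
      obtain ⟨d, hd, hd'⟩ := exists_supIrred_decomposition y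
      have hP : P (d ∪ C.erase c) := by
        constructor
        · intro e he
          rcases Finset.mem_union.1 he with he | he
          · exact ⟨hd' he, a, ha,
              ((Finset.le_sup (f := id) he).trans_eq hd).trans (hy.le.trans hca)⟩
          · exact hC e (Finset.mem_of_mem_erase he)
        · rwa [Finset.sup_union, hd]
      have hnot : ∀ e ∈ d ∪ C.erase c, ¬ c ≤ e := by
        intro e he hce
        rcases Finset.mem_union.1 he with he | he
        · exact hy.not_ge (hce.trans ((Finset.le_sup (f := id) he).trans_eq hd))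
        · apply hirr c hc
          refine hCle.trans (Finset.sup_le fun f hf => ?_)
          rcases eq_or_ne f c with rfl | hfc
          · exact hce.trans (Finset.le_sup (f := id) he)
          · exact Finset.le_sup (f := id) (Finset.mem_erase.2 ⟨hfc, hf⟩)
      have hlt : μ (d ∪ C.erase c) < μ C := by
        apply hdownlt
        refine (Finset.ssubset_iff_of_subset ?_).2 ⟨c, ?_, ?_⟩
        · intro z hz
          obtain ⟨e, he, hze⟩ := (Finset.mem_filter.1 hz).2
          rcases Finset.mem_union.1 he with he | he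
          · exact Finset.mem_filter.2 ⟨Finset.mem_univ _, c, hc,
              hze.trans (((Finset.le_sup (f := id) he).trans_eq hd).trans hy.le)⟩
          · exact Finset.mem_filter.2 ⟨Finset.mem_univ _, e, Finset.mem_of_mem_erase he, hze⟩
        · exact Finset.mem_filter.2 ⟨Finset.mem_univ _, c, hc, le_rfl⟩
        · intro h
          obtain ⟨e, he, hce⟩ := (Finset.mem_filter.1 h).2
          exact hnot e he hce
      exact absurd (hbad _ hP) (not_le.2 hlt)
  · obtain ⟨a, ha, hca⟩ := (hC c hc).2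
    exact hn a ha (hpc.trans hca)

theorem valid_members {p : L} : ∀ {l}, Valid p l →
    ∀ e ∈ l, Relation.ReflTransGen (JoinDep (L := L)) e.2 (lab p l)
  | [], _, e, he => by simp at he
  | (C, c) :: l, ⟨h, hC, hc⟩, e, he => by
    rcases List.mem_cons.1 he with rfl | he
    · exact .refl
    · exact (valid_members h e he).tail (hC.1 c hc)

theorem valid_nodup (hL : LowerBounded L) {p : L} : ∀ {l}, Valid p l → l.Nodup
  | [], _ => List.nodup_nil
  | (C, c) :: l, ⟨h, hC, hc⟩ => by
    refine List.nodup_cons.2 ⟨fun hmem => ?_, valid_nodup hL h⟩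
    exact hL c (Relation.TransGen.tail' (valid_members h _ hmem) (hC.1 c hc))

theorem finite_valid [Finite L] (hL : LowerBounded L) :
    {k : Raw L | Valid k.1 k.2}.Finite := by
  classical
  cases nonempty_fintype L
  have h' : Finite {l : List (Finset L × L) // l.Nodup} := Finite.of_fintype _
  have hfin : {l : List (Finset L × L) | l.Nodup}.Finite := Set.finite_coe_iff.1 h'
  exact (Set.finite_univ.prod hfin).subset fun k hk => ⟨trivial, valid_nodup hL hk⟩

def child (k : Raw L) (C : Finset L) (c : L) : Raw L := (k.1, (C, c) :: k.2)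

/-- Closed sets of nodes. -/
def Closed (x : Set (Raw L)) : Prop :=
  (∀ k ∈ x, Valid k.1 k.2) ∧
    ∀ k : Raw L, Valid k.1 k.2 → ∀ C, Cov (lab k.1 k.2) C → (k ∈ x ↔ ∀ c ∈ C, child k C c ∈ x)

abbrev Pt (L : Type) [Lattice L] [OrderBot L] : Type := {x : Set (Raw L) // Closed x}

/-- Two points agree on the nodes with label below `a`. -/
def theta (a : L) : Setoid (Pt L) where
  r x y := ∀ k : Raw L, lab k.1 k.2 ≤ a → (k ∈ x.1 ↔ k ∈ y.1)
  iseqv := ⟨fun _ _ _ => Iff.rfl, fun h k hk => (h k hk).symm,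
    fun h h' k hk => (h k hk).trans (h' k hk)⟩

theorem closed_univ : Closed {k : Raw L | Valid k.1 k.2} :=
  ⟨fun _ hk => hk, fun k hk C hC => ⟨fun _ _ hc => ⟨hk, hC, hc⟩, fun _ => hk⟩⟩

def Anc (a p : L) : List (Finset L × L) → Prop
  | [] => p ≤ a
  | e :: l => e.2 ≤ a ∨ Anc a p l

theorem anc_of_le {a p : L} : ∀ {l}, lab p l ≤ a → Anc a p l
  | [], h => h
  | (_, _) :: _, h => Or.inl h

theorem closed_anc (a : L) : Closed {k : Raw L | Valid k.1 k.2 ∧ Anc a k.1 k.2} := by
  refine ⟨fun _ hk => hk.1, fun k hk C hC => ⟨fun h c hc => ⟨⟨hk, hC, hc⟩, Or.inr h.2⟩, fun h => ?_⟩⟩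
  refine ⟨hk, by_contra fun hn => hn (anc_of_le (hC.2.1.trans (Finset.sup_le fun c hc => ?_)))⟩
  rcases (h c hc).2 with h' | h'
  · exact h'
  · exact absurd h' hn

def inter (x y : Pt L) : Pt L :=
  ⟨x.1 ∩ y.1, fun k hk => x.2.1 k hk.1, fun k hk C hC => by
    simp only [Set.mem_inter_iff, x.2.2 k hk C hC, y.2.2 k hk C hC]
    exact ⟨fun h c hc => ⟨h.1 c hc, h.2 c hc⟩, fun h => ⟨fun c hc => (h c hc).1, fun c hc => (h c hc).2⟩⟩⟩

theorem descend {x : Pt L} {p : L} (h : ((p, []) : Raw L) ∈ x.1) :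
    ∀ {l}, Valid p l → (p, l) ∈ x.1
  | [], _ => h
  | (C, c) :: l, ⟨hl, hC, hc⟩ => (x.2.2 (p, l) hl C hC).1 (descend h hl) c hc

open Classical in
/-- A chosen refinement of a cover. -/
noncomputable def refine (q : L) (C : Finset L) : Finset L :=
  if h : ∃ D, Cov q D ∧ ∀ d ∈ D, ∃ a ∈ C, d ≤ a then h.choose else ∅

theorem refine_spec [Finite L] {q : L} (hq : SupIrred q) (C : Finset L) (hle : q ≤ C.sup id)
    (hn : ∀ a ∈ C, ¬ q ≤ a) :
    Cov q (refine q C) ∧ ∀ d ∈ refine q C, ∃ a ∈ C, d ≤ a := by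
  rw [refine, dif_pos (exists_cov hq C hle hn)]
  exact (exists_cov hq C hle hn).choose_spec

open Classical in
noncomputable def front (k : Raw L) (C : Finset L) : Set (Raw L) :=
  if ∃ c ∈ C, lab k.1 k.2 ≤ c then {k}
  else {m | ∃ d ∈ refine (lab k.1 k.2) C, m = child k (refine (lab k.1 k.2) C) d}

theorem front_spec [Finite L] (k : Raw L) (hk : Valid k.1 k.2) (C : Finset L)
    (hle : lab k.1 k.2 ≤ C.sup id) :
    (∀ m ∈ front k C, Valid m.1 m.2 ∧ ∃ c ∈ C, lab m.1 m.2 ≤ c) ∧
      ∀ x : Pt L, front k C ⊆ x.1 ↔ k ∈ x.1 := by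
  unfold front
  split
  · next h =>
    exact ⟨fun m hm => by rw [Set.mem_singleton_iff.1 hm]; exact ⟨hk, h⟩,
      fun x => Set.singleton_subset_iff⟩
  · next h =>
    obtain ⟨hD, hD'⟩ := refine_spec (valid_lab hk) C hle fun a ha hka => h ⟨a, ha, hka⟩
    constructor
    · rintro m ⟨d, hd, rfl⟩
      exact ⟨⟨hk, hD, hd⟩, hD' d hd⟩
    · intro x
      rw [x.2.2 k hk _ hD]
      exact ⟨fun h d hd => h ⟨d, hd, rfl⟩, fun h => by rintro m ⟨d, hd, rfl⟩; exact h d hd⟩

/-- The images of the nodes of a tree when its root is sent to `n`. -/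
noncomputable def img (n : Raw L) : List (Finset L × L) → Set (Raw L)
  | [] => {n}
  | (C, c) :: l => {m | (∃ k ∈ img n l, m ∈ front k C) ∧ lab m.1 m.2 ≤ c}

theorem img_spec [Finite L] {p : L} (n : Raw L) (hn : Valid n.1 n.2) (hle : lab n.1 n.2 ≤ p) :
    ∀ {l}, Valid p l → ∀ m ∈ img n l, Valid m.1 m.2 ∧ lab m.1 m.2 ≤ lab p l
  | [], _, m, hm => by
    rw [img] at hm
    rw [Set.mem_singleton_iff.1 hm]
    exact ⟨hn, hle⟩
  | (C, c) :: l, ⟨hl, hC, _⟩, m, ⟨⟨k, hk, hm⟩, hmc⟩ => by
    have h := img_spec n hn hle hl k hk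
    exact ⟨((front_spec k h.1 C (h.2.trans hC.2.1)).1 m hm).1, hmc⟩

/-- The map sending the root of the `p`-tree to `n`. -/
noncomputable def sendMap [Finite L] (p : L) (n : Raw L) (hn : Valid n.1 n.2)
    (hle : lab n.1 n.2 ≤ p) (x : Pt L) : Pt L :=
  ⟨{k | Valid k.1 k.2 ∧ k.1 = p ∧ img n k.2 ⊆ x.1}, fun _ hk => hk.1, fun k hk C hC => by
    constructor
    · rintro ⟨-, hkp, hsub⟩ c hc
      refine ⟨⟨hk, hC, hc⟩, hkp, ?_⟩
      rintro m ⟨⟨j, hj, hm⟩, -⟩
      have hkl : Valid p k.2 := hkp ▸ hk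
      have h := img_spec n hn hle hkl j hj
      have hle' : lab p k.2 ≤ C.sup id := hkp ▸ hC.2.1
      exact ((front_spec j h.1 C (h.2.trans hle')).2 x).2 (hsub hj) hm
    · intro h
      obtain ⟨c0, hc0⟩ := cov_nonempty (valid_lab hk) hC
      have hkp : k.1 = p := (h c0 hc0).2.1
      refine ⟨hk, hkp, fun j hj => ?_⟩
      have hkl : Valid p k.2 := hkp ▸ hk
      have hs := img_spec n hn hle hkl j hj
      have hle' : lab p k.2 ≤ C.sup id := hkp ▸ hC.2.1
      have hF := front_spec j hs.1 C (hs.2.trans hle')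
      refine (hF.2 x).1 fun m hm => ?_
      obtain ⟨c, hc, hmc⟩ := (hF.1 m hm).2
      exact (h c hc).2.2 ⟨⟨j, hj, hm⟩, hmc⟩⟩

theorem sendMap_theta [Finite L] (p : L) (n : Raw L) (hn : Valid n.1 n.2)
    (hle : lab n.1 n.2 ≤ p) (a : L) (x y : Pt L) (h : (theta a).r x y) :
    (theta a).r (sendMap p n hn hle x) (sendMap p n hn hle y) := by
  intro k hka
  have key : Valid k.1 k.2 → k.1 = p → ∀ m ∈ img n k.2, (m ∈ x.1 ↔ m ∈ y.1) := by
    intro hk hkp m hm
    refine h m ((img_spec n hn hle (hkp ▸ hk : Valid p k.2) m hm).2.trans ?_)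
    rw [← hkp]
    exact hka
  exact ⟨fun ⟨h1, h2, h3⟩ => ⟨h1, h2, fun m hm => (key h1 h2 m hm).1 (h3 hm)⟩,
    fun ⟨h1, h2, h3⟩ => ⟨h1, h2, fun m hm => (key h1 h2 m hm).2 (h3 hm)⟩⟩

theorem sendMap_root [Finite L] {p : L} (hp : SupIrred p) (n : Raw L) (hn : Valid n.1 n.2)
    (hle : lab n.1 n.2 ≤ p) (x : Pt L) :
    ((p, []) : Raw L) ∈ (sendMap p n hn hle x).1 ↔ n ∈ x.1 :=
  ⟨fun h => h.2.2 rfl, fun h => ⟨hp, rfl, Set.singleton_subset_iff.2 h⟩⟩

theorem lab_append (p : L) (l0 : List (Finset L × L)) :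
    ∀ l', lab (lab p l0) l' = lab p (l' ++ l0)
  | [] => rfl
  | (_, _) :: _ => rfl

theorem valid_append {p : L} {l0 : List (Finset L × L)} (h0 : Valid p l0) :
    ∀ {l'}, Valid p (l' ++ l0) → Valid (lab p l0) l'
  | [], _ => valid_lab h0
  | (C, c) :: l', ⟨h, hC, hc⟩ => ⟨valid_append h0 h, by rw [lab_append]; exact hC, hc⟩

/-- The map grafting the subtree at a root `n` of `m` onto the tree of its label. -/
def graft (m : Pt L) (p0 : L) (l0 : List (Finset L × L)) (h0 : (p0, l0) ∈ m.1)
    (hroot : ∀ C c l, l0 = (C, c) :: l → (p0, l) ∉ m.1) (x : Pt L) : Pt L :=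
  ⟨{k | k ∈ m.1 ∧ ∀ l', k = (p0, l' ++ l0) → (lab p0 l0, l') ∈ x.1},
    fun _ hk => m.2.1 _ hk.1, fun k hk C hC => by
    constructor
    · rintro ⟨hkm, hk'⟩ c hc
      refine ⟨(m.2.2 k hk C hC).1 hkm c hc, fun l' hl' => ?_⟩
      obtain ⟨h1, h2⟩ := Prod.mk.injEq _ _ _ _ ▸ hl'
      rcases l' with _ | ⟨e, l'⟩
      · exact absurd (h1 ▸ hkm : (p0, k.2) ∈ m.1) (hroot C c k.2 (by simpa using h2.symm))
      · simp only [List.cons_append, List.cons.injEq] at h2
        obtain ⟨rfl, h2⟩ := h2
        have hkeq : k = (p0, l' ++ l0) := Prod.ext h1 h2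
        subst hkeq
        have hv := valid_append (m.2.1 _ h0) hk
        refine (x.2.2 (lab p0 l0, l') hv C ?_).1 (hk' l' rfl) c hc
        rw [lab_append]
        exact hC
    · intro h
      refine ⟨(m.2.2 k hk C hC).2 fun c hc => (h c hc).1, fun l' hl' => ?_⟩
      subst hl'
      have hv := valid_append (m.2.1 _ h0) hk
      refine (x.2.2 (lab p0 l0, l') hv C (by rw [lab_append]; exact hC)).2 fun c hc => ?_
      exact (h c hc).2 ((C, c) :: l') rfl⟩

theorem representable_dual_of_lowerBounded [Finite L] (hL : LowerBounded L) :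
    Representable Lᵒᵈ := by
  classical
  have : Finite (Pt L) := by
    have hfin := (finite_valid hL).finite_subsets
    have : {x : Set (Raw L) | Closed x}.Finite := hfin.subset fun x hx => hx.1
    exact this.to_subtype
  have : Nonempty (Pt L) := ⟨⟨_, closed_univ⟩⟩
  let H : Type := {f : Pt L → Pt L // ∀ a x y, (theta a).r x y → (theta a).r (f x) (f y)}
  let ar : Option H → ℕ := fun o => if o.isSome then 1 else 2
  let op : ∀ o : Option H, (Fin (ar o) → Pt L) → Pt L := fun o =>
    match o with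
    | some f => fun v => f.1 (v ⟨0, Nat.one_pos⟩)
    | none => fun v => inter (v ⟨0, Nat.two_pos⟩) (v ⟨1, Nat.one_lt_two⟩)
  have hth : ∀ (a : L) o, Compat (op o) (theta a) := by
    intro a o v w hvw
    cases o with
    | some f => exact f.2 a _ _ (hvw _)
    | none =>
      intro k hk
      exact and_congr (hvw ⟨0, Nat.two_pos⟩ k hk) (hvw ⟨1, Nat.one_lt_two⟩ k hk)
  let F : Lᵒᵈ → {R : Setoid (Pt L) // ∀ o, Compat (op o) R} :=
    fun a => ⟨theta (OrderDual.ofDual a), hth _⟩
  have hle : ∀ a b, F a ≤ F b ↔ a ≤ b := by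
    intro a b
    constructor
    · intro h
      rw [← OrderDual.ofDual_le_ofDual]
      obtain ⟨s, hs, hs'⟩ := exists_supIrred_decomposition (OrderDual.ofDual b)
      rw [← hs]
      refine Finset.sup_le fun p hp => ?_
      set a' := OrderDual.ofDual a
      have hrel : (theta a').r ⟨_, closed_univ⟩ ⟨_, closed_anc a'⟩ :=
        fun k hk => ⟨fun hv => ⟨hv, anc_of_le hk⟩, fun hv => hv.1⟩
      have := h hrel (p, []) ((Finset.le_sup (f := id) hp).trans_eq hs)
      exact (this.1 (hs' hp)).2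
    · intro h x y hxy k hk
      exact hxy k (le_trans hk h)
  have hsurj : Surjective F := by
    rintro ⟨R, hR⟩
    cases nonempty_fintype L
    let P : Finset L := Finset.univ.filter fun p =>
      SupIrred p ∧ ∀ x y, R.r x y → (((p, []) : Raw L) ∈ x.1 ↔ ((p, []) : Raw L) ∈ y.1)
    have hf : ∀ f : H, ∀ x y, R.r x y → R.r (f.1 x) (f.1 y) := fun f x y h =>
      hR (some f) (fun _ => x) (fun _ => y) (fun _ => h)
    have hi : ∀ x y z, R.r x y → R.r (inter z x) (inter z y) := fun x y z h =>
      hR none (fun i => if i.1 = 0 then z else x) (fun i => if i.1 = 0 then z else y) fun i => by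
        split
        · exact R.iseqv.refl z
        · exact h
    refine ⟨OrderDual.toDual (P.sup id), Subtype.ext (Setoid.ext fun x y => ?_)⟩
    set a := P.sup id
    show (theta a).r x y ↔ R.r x y
    constructor
    · intro hxy
      have least : ∀ x : Pt L, ∃ m : Pt L, R.r x m ∧ m.1 ⊆ x.1 ∧
          ∀ u v, R.r u v → m.1 ⊆ u.1 → m.1 ⊆ v.1 := by
        intro x
        obtain ⟨m, hm, hmin⟩ := (Set.toFinite {z : Pt L | R.r x z}).exists_minimalFor
          (fun z => z.1) _ ⟨x, R.iseqv.refl x⟩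
        have hle : ∀ z, R.r x z → m.1 ⊆ z.1 := by
          intro z hz
          have h1 : R.r (inter m m) (inter m z) := hi m z m (R.iseqv.trans (R.iseqv.symm hm) hz)
          have h2 : inter m m = m := Subtype.ext (Set.inter_self _)
          rw [h2] at h1
          exact (hmin (j := inter m z) (R.iseqv.trans hm h1) Set.inter_subset_left).trans
            Set.inter_subset_right
        refine ⟨m, hm, hle x (R.iseqv.refl x), fun u v huv hu => ?_⟩
        have h1 := hi u v m huv
        have h2 : inter m u = m := Subtype.ext (Set.inter_eq_left.2 hu)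
        rw [h2] at h1
        exact (hle _ (R.iseqv.trans hm h1)).trans Set.inter_subset_right
      have sep : ∀ m : Pt L, (∀ u v, R.r u v → m.1 ⊆ u.1 → m.1 ⊆ v.1) →
          ∀ u v : Pt L, (theta a).r u v → m.1 ⊆ u.1 → m.1 ⊆ v.1 := by
        intro m hm u v huv hu
        have root : ∀ p0 l0, (p0, l0) ∈ m.1 →
            (∀ C c l, l0 = (C, c) :: l → (p0, l) ∉ m.1) → lab p0 l0 ≤ a := by
          intro p0 l0 h0 hroot
          refine Finset.le_sup (f := id) (Finset.mem_filter.2 ⟨Finset.mem_univ _,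
            valid_lab (m.2.1 _ h0), fun x y hxy => ?_⟩)
          have hkey : ∀ z, m.1 ⊆ (graft m p0 l0 h0 hroot z).1 ↔
              ((lab p0 l0, []) : Raw L) ∈ z.1 := by
            intro z
            refine ⟨fun h => (h h0).2 [] rfl, fun h k hk => ⟨hk, fun l' hl' => ?_⟩⟩
            subst hl'
            exact descend h (valid_append (m.2.1 _ h0) (m.2.1 _ hk))
          have hcomp : ∀ b x y, (theta b).r x y →
              (theta b).r (graft m p0 l0 h0 hroot x) (graft m p0 l0 h0 hroot y) := by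
            intro b x y hxy k hk
            refine and_congr Iff.rfl (forall_congr' fun l' => imp_congr_right fun hl' => ?_)
            subst hl'
            refine hxy _ ?_
            rw [lab_append]
            exact hk
          have hR1 := hf ⟨_, hcomp⟩ x y hxy
          exact (hkey x).symm.trans ((⟨hm _ _ hR1, hm _ _ (R.iseqv.symm hR1)⟩ :
            m.1 ⊆ (graft m p0 l0 h0 hroot x).1 ↔ m.1 ⊆ (graft m p0 l0 h0 hroot y).1).trans (hkey y))
        have all : ∀ p l, (p, l) ∈ m.1 → (p, l) ∈ v.1 := by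
          intro p l
          induction l with
          | nil =>
            intro h
            exact (huv _ (root p [] h fun _ _ _ h => by cases h)).1 (hu h)
          | cons e l ih =>
            intro h
            obtain ⟨C, c⟩ := e
            by_cases hl : (p, l) ∈ m.1
            · obtain ⟨hv, hC, hc⟩ := m.2.1 _ h
              exact (v.2.2 (p, l) hv C hC).1 (ih hl) c hc
            · refine (huv _ (root p _ h fun C' c' l' he => ?_)).1 (hu h)
              obtain ⟨_, rfl⟩ := List.cons.inj he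
              exact hl
        exact fun k hk => all k.1 k.2 hk
      obtain ⟨mx, hmx, hmx', hsx⟩ := least x
      obtain ⟨my, hmy, hmy', hsy⟩ := least y
      have h1 := sep mx hsx x y hxy hmx'
      have h2 := sep my hsy y x ((theta a).iseqv.symm hxy) hmy'
      have e1 : inter y mx = mx := Subtype.ext (Set.inter_eq_right.2 h1)
      have e2 : inter x my = my := Subtype.ext (Set.inter_eq_right.2 h2)
      have r1 := hi x mx y hmx
      have r2 := hi y my x hmy
      rw [e1] at r1
      rw [e2] at r2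
      have e3 : inter y x = inter x y := Subtype.ext (Set.inter_comm _ _)
      rw [e3] at r1
      exact R.iseqv.trans (R.iseqv.trans hmx (R.iseqv.symm r1))
        (R.iseqv.trans r2 (R.iseqv.symm hmy))
    · intro hxy k hk
      have hPsep : ∀ p ∈ P, ∀ n : Raw L, Valid n.1 n.2 → lab n.1 n.2 ≤ p →
          ∀ x y, R.r x y → (n ∈ x.1 ↔ n ∈ y.1) := by
        intro p hp n hn hle x y hxy
        obtain ⟨-, hp1, hp2⟩ := Finset.mem_filter.1 hp
        rw [← sendMap_root hp1 n hn hle x, ← sendMap_root hp1 n hn hle y]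
        exact hp2 _ _ (hf ⟨_, sendMap_theta p n hn hle⟩ x y hxy)
      by_cases hv : Valid k.1 k.2
      · by_cases hex : ∃ p ∈ P, lab k.1 k.2 ≤ p
        · obtain ⟨p, hp, hle⟩ := hex
          exact hPsep p hp k hv hle x y hxy
        · obtain ⟨C, hC, hC'⟩ := exists_cov (valid_lab hv) P hk
            fun p hp h => hex ⟨p, hp, h⟩
          rw [x.2.2 k hv C hC, y.2.2 k hv C hC]
          refine forall_congr' fun c => imp_congr_right fun hc => ?_
          obtain ⟨p, hp, hcp⟩ := hC' c hc
          exact hPsep p hp (child k C c) ⟨hv, hC, hc⟩ hcp x y hxy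
      · exact ⟨fun h => absurd (x.2.1 k h) hv, fun h => absurd (y.2.1 k h) hv⟩
  exact representable_of_family ar op
    (RelIso.ofSurjective (OrderEmbedding.ofMapLEIff F hle) hsurj)

end Vale.Agent.P183.Tree
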