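import Mathlib
import Vale.Agent.P183.Basic
import Vale.Agent.P183.Kurzweil
import Vale.Agent.P183.Tree

/-!
Adding one join-irreducible element `p` to the span of a `D`-closed set `S`.
-/

namespace Vale.Agent.P183.Step

open Function

variable {L : Type} [Lattice L] [OrderBot L]

/-- The join of the members of `S` below `a`. -/
noncomputable def kap [Finite L] (S : Set L) (a : L) : L :=
  ((Set.toFinite {q | q ∈ S ∧ q ≤ a}).toFinset).sup id

section kapFacts

variable [Finite L] {S : Set L} {a b q : L}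

theorem kap_le : kap S a ≤ a :=
  Finset.sup_le fun _ hq => ((Set.Finite.mem_toFinset _).1 hq).2

theorem le_kap (hq : q ∈ S) (h : q ≤ a) : q ≤ kap S a :=
  Finset.le_sup (f := id) ((Set.Finite.mem_toFinset _).2 ⟨hq, h⟩)

theorem kap_le_iff : kap S a ≤ b ↔ ∀ q ∈ S, q ≤ a → q ≤ b :=
  ⟨fun h _ hq hqa => (le_kap hq hqa).trans h,
    fun h => Finset.sup_le fun q hq => h q ((Set.Finite.mem_toFinset _).1 hq).1
      ((Set.Finite.mem_toFinset _).1 hq).2⟩

theorem kap_mono (h : a ≤ b) : kap S a ≤ kap S b :=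
  kap_le_iff.2 fun _ hq hqa => le_kap hq (hqa.trans h)

theorem kap_kap : kap S (kap S a) = kap S a :=
  le_antisymm kap_le (kap_le_iff.2 fun _ hq hqa => le_kap hq (le_kap hq hqa))

theorem kap_self (hq : q ∈ S) : kap S q = q :=
  le_antisymm kap_le (le_kap hq le_rfl)

theorem isLUB_iff : IsLUB {x | x ∈ S ∧ x ≤ a} a ↔ kap S a = a := by
  constructor
  · intro h
    exact le_antisymm kap_le (h.2 fun x hx => le_kap hx.1 hx.2)
  · intro h
    exact ⟨fun x hx => hx.2, fun b hb => h ▸ kap_le_iff.2 fun x hx hxa => hb ⟨hx, hxa⟩⟩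

end kapFacts

/-- The span of `S`. -/
abbrev Span (S : Set L) : Type := {a : L // IsLUB {x | x ∈ S ∧ x ≤ a} a}

variable [Finite L]

/-- The data of one step. -/
structure Data (S : Set L) (p : L) where
  A : Type
  fin : Finite A
  pt : A
  η : L → Setoid A
  anti : ∀ a b, kap S a = a → kap S b = b → (η a ≤ η b ↔ b ≤ a)
  onto : ∀ r : Setoid A,
    (∀ φ : A → A, (∀ a, kap S a = a → ∀ x y, (η a).r x y → (η a).r (φ x) (φ y)) →
      ∀ x y, r.r x y → r.r (φ x) (φ y)) → ∃ a, kap S a = a ∧ r = η a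
  homog : ∀ u v : A, ∃ g : A ≃ A, g u = v ∧ ∀ a, kap S a = a → ∀ x y, (η a).r x y →
      (η a).r (g x) (g y) ∧ (η a).r (g.symm x) (g.symm y)

namespace Data

variable {S : Set L} {p : L} (Δ : Data S p)

abbrev Slot (S : Set L) : Type := {d : L // d ∈ S} × Bool

abbrev Val : Type := Slot S → Δ.A

def In (v : Δ.Val) (d : {d : L // d ∈ S}) : Prop :=
  ∀ i, (Δ.η d.1).r (v (d, i)) Δ.pt

noncomputable def inSup (v : Δ.Val) : L :=
  ((Set.toFinite {q | ∃ h : q ∈ S, Δ.In v ⟨q, h⟩}).toFinset).sup id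

/-- Every cover of `p` has a label which is out. -/
def Hit (v : Δ.Val) : Prop :=
  ¬ ((∀ d : {d : L // d ∈ S}, d.1 ≤ p → Δ.In v d) ∧ p ≤ Δ.inSup v)

theorem inSup_le {v : Δ.Val} {b : L} (h : ∀ d, Δ.In v d → d.1 ≤ b) : Δ.inSup v ≤ b :=
  Finset.sup_le fun q hq => by
    obtain ⟨hqS, hin⟩ := (Set.Finite.mem_toFinset _).1 hq
    exact h ⟨q, hqS⟩ hin

theorem le_inSup {v : Δ.Val} {d : {d : L // d ∈ S}} (h : Δ.In v d) : d.1 ≤ Δ.inSup v :=
  Finset.le_sup (f := id) ((Set.Finite.mem_toFinset _).2 ⟨d.2, h⟩)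

theorem hit_mono {v w : Δ.Val} (h : ∀ d, Δ.In w d → Δ.In v d) (hv : Δ.Hit v) : Δ.Hit w :=
  fun ⟨h1, h2⟩ => hv ⟨fun d hd => h d (h1 d hd),
    h2.trans (Δ.inSup_le fun _ hd => Δ.le_inSup (h _ hd))⟩

theorem hit_of_out {v : Δ.Val} {d : {d : L // d ∈ S}} (hd : d.1 ≤ p) (h : ¬ Δ.In v d) :
    Δ.Hit v :=
  fun ⟨h1, _⟩ => h (h1 d hd)

/-- The configurations: `true` is the value of the new coordinate at a point. -/
def Legal (v : Δ.Val) (b : Bool) : Prop :=
  if b then (∀ d : {d : L // d ∈ S}, d.1 ≤ p → Δ.In v d) ∧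
    (∀ σ : Slot S, ¬ σ.1.1 ≤ p → v σ = Δ.pt)
  else Δ.Hit v

def Pt : Type := {x : Δ.A × Δ.Val × Bool // Δ.Legal x.2.1 x.2.2}

def cfg (s : Δ.A) (v : Δ.Val) (b : Bool) (h : Δ.Legal v b) : Δ.Pt := ⟨(s, v, b), h⟩

theorem allIn_point : Δ.Legal (fun _ => Δ.pt) true := by
  refine ⟨fun d _ i => (Δ.η d.1).iseqv.refl _, fun _ _ => rfl⟩

instance : Nonempty Δ.Pt := ⟨Δ.cfg Δ.pt _ true Δ.allIn_point⟩

theorem finite_pt : Finite Δ.Pt :=
  haveI := Δ.fin
  Subtype.finite

/-- The congruence attached to `a`. -/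
def theta (a : L) : Setoid Δ.Pt where
  r x y := (Δ.η (kap S a)).r x.1.1 y.1.1 ∧
    (∀ σ, (Δ.η (kap S a)).r (x.1.2.1 σ) (y.1.2.1 σ)) ∧ (p ≤ a → x.1.2.2 = y.1.2.2)
  iseqv := by
    refine ⟨fun x => ⟨(Δ.η _).iseqv.refl _, fun _ => (Δ.η _).iseqv.refl _, fun _ => rfl⟩,
      fun h => ⟨(Δ.η _).iseqv.symm h.1, fun σ => (Δ.η _).iseqv.symm (h.2.1 σ),
        fun hp => (h.2.2 hp).symm⟩,
      fun h h' => ⟨(Δ.η _).iseqv.trans h.1 h'.1, fun σ => (Δ.η _).iseqv.trans (h.2.1 σ) (h'.2.1 σ),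
        fun hp => (h.2.2 hp).trans (h'.2.2 hp)⟩⟩

theorem eta_sub {a : L} {d : {d : L // d ∈ S}} (h : d.1 ≤ a) {x y : Δ.A}
    (hxy : (Δ.η (kap S a)).r x y) : (Δ.η d.1).r x y :=
  (Δ.anti (kap S a) d.1 kap_kap (kap_self d.2)).2 (le_kap d.2 h) hxy

/-- Outside of the classes below `a` there is a partner of every point. -/
theorem partner {a : L} {d : {d : L // d ∈ S}} (h : ¬ d.1 ≤ kap S a) (u : Δ.A) :
    ∃ w, (Δ.η (kap S a)).r u w ∧ ¬ (Δ.η d.1).r u w := by
  have hn : ¬ Δ.η (kap S a) ≤ Δ.η d.1 := fun hle => h ((Δ.anti _ _ kap_kap (kap_self d.2)).1 hle)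
  obtain ⟨x, y, hxy, hn'⟩ : ∃ x y, (Δ.η (kap S a)).r x y ∧ ¬ (Δ.η d.1).r x y := by
    by_contra hc
    push Not at hc
    exact hn fun x y hxy => hc x y hxy
  obtain ⟨g, hgx, hg⟩ := Δ.homog x u
  refine ⟨g y, hgx ▸ (hg _ kap_kap x y hxy).1, fun hd => hn' ?_⟩
  rw [← hgx] at hd
  simpa using (hg _ (kap_self d.2) _ _ hd).2

/-- Setting one slot. -/
noncomputable def put (v : Δ.Val) (σ : Slot S) (z : Δ.A) : Δ.Val := by
  classical exact update v σ z

theorem put_same (v : Δ.Val) (σ : Slot S) (z : Δ.A) : Δ.put v σ z σ = z := by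
  classical simp [put]

theorem put_ne (v : Δ.Val) {σ τ : Slot S} (z : Δ.A) (h : τ ≠ σ) : Δ.put v σ z τ = v τ := by
  classical simp [put, h]

theorem put_self (v : Δ.Val) (σ : Slot S) : Δ.put v σ (v σ) = v := by
  classical simp [put]

theorem in_put_ne (v : Δ.Val) {σ : Slot S} (z : Δ.A) {d : {d : L // d ∈ S}} (h : d ≠ σ.1) :
    Δ.In (Δ.put v σ z) d ↔ Δ.In v d := by
  refine forall_congr' fun i => ?_
  rw [Δ.put_ne v z (fun he => h (congrArg Prod.fst he))]

section Cong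

/-- The maps preserving all `theta a`. -/
def Pres (f : Δ.Pt → Δ.Pt) : Prop := ∀ a x y, (Δ.theta a).r x y → (Δ.theta a).r (f x) (f y)

variable (R : Setoid Δ.Pt) (hR : ∀ f, Δ.Pres f → ∀ x y, R.r x y → R.r (f x) (f y))
  {a0 : L} (ha0 : kap S a0 = a0)
  (hρ : ∀ u v, (Δ.η a0).r u v ↔
    R.r (Δ.cfg u _ true Δ.allIn_point) (Δ.cfg v _ true Δ.allIn_point))

include hR hρ in
/-- A one-parameter family of configurations carries `η a0` into `R`. -/
theorem push (P : Δ.A → Δ.Pt)
    (hP : ∀ a u v, (Δ.η (kap S a)).r u v → (Δ.theta a).r (P u) (P v))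
    {u v : Δ.A} (h : (Δ.η a0).r u v) : R.r (P u) (P v) :=
  hR (fun x => P x.1.1) (fun a _ _ hxy => hP a _ _ hxy.1) _ _ ((hρ u v).1 h)

include hR hρ in
theorem move_s {u u' : Δ.A} (h : (Δ.η a0).r u u') (v : Δ.Val) (b : Bool) (hv : Δ.Legal v b) :
    R.r (Δ.cfg u v b hv) (Δ.cfg u' v b hv) :=
  Δ.push R hR hρ (fun z => Δ.cfg z v b hv)
    (fun a _ _ huv => ⟨huv, fun _ => (Δ.η _).iseqv.refl _, fun _ => rfl⟩) h

include hR hρ in
theorem coord {x y : Δ.Pt} (h : R.r x y) :
    (Δ.η a0).r x.1.1 y.1.1 ∧ ∀ σ, (Δ.η a0).r (x.1.2.1 σ) (y.1.2.1 σ) := by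
  constructor
  · exact (hρ _ _).2 (hR (fun z => Δ.cfg z.1.1 _ true Δ.allIn_point)
      (fun a _ _ hxy => ⟨hxy.1, fun _ => (Δ.η _).iseqv.refl _, fun _ => rfl⟩) x y h)
  · intro σ
    exact (hρ _ _).2 (hR (fun z => Δ.cfg (z.1.2.1 σ) _ true Δ.allIn_point)
      (fun a _ _ hxy => ⟨hxy.2.1 σ, fun _ => (Δ.η _).iseqv.refl _, fun _ => rfl⟩) x y h)

include hR hρ in
/-- Changing a slot along which the new coordinate stays constant. -/
theorem move_slot (s : Δ.A) (v : Δ.Val) (b : Bool) (σ : Slot S)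
    (hall : ∀ z, Δ.Legal (Δ.put v σ z) b) {u u' : Δ.A} (h : (Δ.η a0).r u u') :
    R.r (Δ.cfg s _ b (hall u)) (Δ.cfg s _ b (hall u')) :=
  Δ.push R hR hρ (fun z => Δ.cfg s _ b (hall z))
    (fun a z z' hz => ⟨(Δ.η _).iseqv.refl _, fun τ => by
      show (Δ.η _).r (Δ.put v σ z τ) (Δ.put v σ z' τ)
      by_cases ht : τ = σ
      · subst ht; rw [Δ.put_same, Δ.put_same]; exact hz
      · rw [Δ.put_ne v z ht, Δ.put_ne v z' ht], fun _ => rfl⟩) h

include hR hρ ha0 in
/-- Changing the two slots of one label between two hitting configurations. -/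
theorem pair_move (s : Δ.A) (v w : Δ.Val) (d : {d : L // d ∈ S}) (hv : Δ.Hit v) (hw : Δ.Hit w)
    (heq : ∀ σ : Slot S, σ.1 ≠ d → v σ = w σ) (hrel : ∀ i, (Δ.η a0).r (v (d, i)) (w (d, i))) :
    R.r (Δ.cfg s v false hv) (Δ.cfg s w false hw) := by
  classical
  have one : ∀ (v : Δ.Val) (hv : Δ.Hit v) (i : Bool) (z : Δ.A),
      (∀ z, Δ.Hit (Δ.put v (d, i) z)) → (Δ.η a0).r (v (d, i)) z →
      ∀ (v' : Δ.Val) (hv' : Δ.Hit v'), v' = Δ.put v (d, i) z →
        R.r (Δ.cfg s v false hv) (Δ.cfg s v' false hv') := by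
    intro v hv i z hall hz v' hv' he
    subst he
    have := Δ.move_slot R hR hρ s v false (d, i) hall hz
    simpa [Δ.put_self] using this
  have weq : ∀ i, Δ.put (Δ.put v (d, i) (w (d, i))) (d, !i) (w (d, !i)) = w := by
    intro i
    funext σ
    by_cases h1 : σ = (d, !i)
    · subst h1; rw [Δ.put_same]
    · rw [Δ.put_ne _ _ h1]
      by_cases h2 : σ = (d, i)
      · subst h2; rw [Δ.put_same]
      · rw [Δ.put_ne _ _ h2]
        refine heq σ fun h => ?_
        obtain ⟨σd, j⟩ := σ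
        subst h
        cases i <;> cases j <;> simp_all
  by_cases hex : ∀ u : Δ.Val, (∀ σ : Slot S, σ.1 ≠ d → u σ = v σ) → Δ.Hit u
  · have hput : ∀ i z, Δ.Hit (Δ.put v (d, i) z) := fun i z => hex _ fun σ hσ =>
      Δ.put_ne v z fun h => hσ (by rw [h])
    have hput2 : ∀ i z j z', Δ.Hit (Δ.put (Δ.put v (d, i) z) (d, j) z') := fun i z j z' =>
      hex _ fun σ hσ => by
        rw [Δ.put_ne _ _ fun h => hσ (by rw [h]), Δ.put_ne _ _ fun h => hσ (by rw [h])]
    refine R.iseqv.trans (one v hv true (w (d, true)) (hput true) (hrel true) _ (hput true _) rfl) ?_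
    refine one _ _ false (w (d, false)) (hput2 true _ false) ?_ w hw (weq true).symm
    rw [Δ.put_ne _ _ (by simp)]
    exact hrel false
  -- otherwise `d` is out in both
  push Not at hex
  obtain ⟨u0, hu0, hnot⟩ := hex
  have hout : ∀ u : Δ.Val, (∀ σ : Slot S, σ.1 ≠ d → u σ = v σ) → Δ.Hit u → ¬ Δ.In u d := by
    intro u hu hh hin
    apply hnot
    refine Δ.hit_mono (fun e he => ?_) hh
    by_cases hed : e = d
    · exact hed ▸ hin
    · intro i
      rw [hu (e, i) hed, ← hu0 (e, i) hed]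
      exact he i
  have hitof : ∀ u : Δ.Val, (∀ σ : Slot S, σ.1 ≠ d → u σ = v σ) → ¬ Δ.In u d → Δ.Hit u := by
    intro u hu hd
    refine Δ.hit_mono (fun e he => ?_) hv
    by_cases hed : e = d
    · exact absurd (hed ▸ he) hd
    · intro i
      rw [← hu (e, i) hed]
      exact he i
  let C : Δ.A → Prop := fun z => (Δ.η d.1).r z Δ.pt
  have twin : ∀ (u : Δ.Val) (i : Bool), (∀ σ : Slot S, σ.1 ≠ d → u σ = v σ) →
      ¬ C (u (d, !i)) → ∀ z, Δ.Hit (Δ.put u (d, i) z) := by
    intro u i hu hC z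
    refine hitof _ (fun σ hσ => ?_) fun hin => hC ?_
    · rw [Δ.put_ne _ _ fun h => hσ (by rw [h]), hu σ hσ]
    · have := hin (!i)
      rwa [Δ.put_ne _ _ (by simp)] at this
  have hvd := hout v (fun _ _ => rfl) hv
  have hwd := hout w (fun σ hσ => (heq σ hσ).symm) hw
  -- the easy order
  have easy : ∀ i, ¬ C (v (d, !i)) → ¬ C (w (d, i)) →
      R.r (Δ.cfg s v false hv) (Δ.cfg s w false hw) := by
    intro i h1 h2
    have hu : ∀ σ : Slot S, σ.1 ≠ d → Δ.put v (d, i) (w (d, i)) σ = v σ := fun σ hσ =>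
      Δ.put_ne _ _ fun h => hσ (by rw [h])
    have hmid := twin v i (fun _ _ => rfl) h1 (w (d, i))
    refine R.iseqv.trans (one v hv i _ (twin v i (fun _ _ => rfl) h1) (hrel i) _ hmid rfl) ?_
    refine one _ _ (!i) (w (d, !i)) (twin _ (!i) hu ?_) ?_ w hw (weq i).symm
    · rw [Bool.not_not, Δ.put_same]; exact h2
    · rw [Δ.put_ne _ _ (by simp)]; exact hrel _
  by_cases h1 : ∃ i, ¬ C (v (d, !i)) ∧ ¬ C (w (d, i))
  · obtain ⟨i, ha, hb⟩ := h1
    exact easy i ha hb
  push Not at h1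
  -- the remaining case: a twisted move
  obtain ⟨i, hi⟩ : ∃ i, ¬ C (v (d, i)) := not_forall.1 hvd
  have hwni : C (w (d, !i)) := h1 (!i) (by rwa [Bool.not_not])
  have hwi : ¬ C (w (d, i)) := by
    intro h
    apply hwd
    intro j
    cases i <;> cases j <;> assumption
  have hvni : C (v (d, !i)) := by
    by_contra h
    exact hwi (h1 i h)
  obtain ⟨g, hg1, hg⟩ := Δ.homog (v (d, i)) (v (d, !i))
  let T : Δ.A → Δ.Val := fun z => Δ.put (Δ.put v (d, i) z) (d, !i) (g z)
  have hTd : ∀ z, T z (d, i) = z ∧ T z (d, !i) = g z := fun z =>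
    ⟨by simp only [T]; rw [Δ.put_ne _ _ (by simp), Δ.put_same], by simp only [T]; rw [Δ.put_same]⟩
  have hTo : ∀ z, ∀ σ : Slot S, σ.1 ≠ d → T z σ = v σ := fun z σ hσ => by
    simp only [T]
    rw [Δ.put_ne _ _ fun h => hσ (by rw [h]), Δ.put_ne _ _ fun h => hσ (by rw [h])]
  have hT : ∀ z, Δ.Legal (T z) false := by
    intro z
    refine hitof _ (hTo z) fun hin => hi ?_
    have e1 := hin i
    have e2 := hin (!i)
    rw [(hTd z).1] at e1
    rw [(hTd z).2] at e2
    have e3 : (Δ.η d.1).r (g z) (g (v (d, i))) := by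
      rw [hg1]
      exact (Δ.η d.1).iseqv.trans e2 ((Δ.η d.1).iseqv.symm hvni)
    have e4 := (hg _ (kap_self d.2) _ _ e3).2
    simp only [Equiv.symm_apply_apply] at e4
    exact (Δ.η d.1).iseqv.trans ((Δ.η d.1).iseqv.symm e4) e1
  have step1 : R.r (Δ.cfg s (T (v (d, i))) false (hT _)) (Δ.cfg s (T (w (d, i))) false (hT _)) := by
    refine Δ.push R hR hρ (fun z => Δ.cfg s (T z) false (hT z))
      (fun a z z' hz => ⟨(Δ.η _).iseqv.refl _, fun σ => ?_, fun _ => rfl⟩) (hrel i)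
    show (Δ.η _).r (T z σ) (T z' σ)
    by_cases hσ : σ.1 = d
    · obtain ⟨e, j⟩ := σ
      simp only at hσ
      subst hσ
      rcases Bool.eq_or_eq_not j i with rfl | rfl
      · rw [(hTd z).1, (hTd z').1]; exact hz
      · rw [(hTd z).2, (hTd z').2]; exact (hg _ kap_kap _ _ hz).1
    · rw [hTo z σ hσ, hTo z' σ hσ]
  have hTv : T (v (d, i)) = v := by
    simp only [T]
    rw [hg1, Δ.put_self, Δ.put_self]
  have e0 : Δ.cfg s v false hv = Δ.cfg s (T (v (d, i))) false (hT _) := by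
    apply Subtype.ext
    show (s, v, false) = (s, T (v (d, i)), false)
    rw [hTv]
  rw [e0]
  refine R.iseqv.trans step1 ?_
  refine one _ _ (!i) (w (d, !i)) (twin _ (!i) (hTo _) ?_) ?_ w hw ?_
  · rw [Bool.not_not, (hTd _).1]; exact hwi
  · rw [(hTd _).2]
    have := (hg a0 ha0 _ _ (hrel i)).1
    rw [hg1] at this
    exact (Δ.η a0).iseqv.trans ((Δ.η a0).iseqv.symm this) (hrel (!i))
  · funext σ
    by_cases h : σ = (d, !i)
    · subst h; rw [Δ.put_same]
    · rw [Δ.put_ne _ _ h]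
      by_cases hσ : σ.1 = d
      · obtain ⟨e, j⟩ := σ
        simp only at hσ
        subst hσ
        rcases Bool.eq_or_eq_not j i with rfl | rfl
        · rw [(hTd _).1]
        · exact absurd rfl h
      · rw [hTo _ σ hσ, heq σ hσ]

end Cong

section Connect

variable (R : Setoid Δ.Pt) (hR : ∀ f, Δ.Pres f → ∀ x y, R.r x y → R.r (f x) (f y))
  {a0 : L} (ha0 : kap S a0 = a0)
  (hρ : ∀ u v, (Δ.η a0).r u v ↔
    R.r (Δ.cfg u _ true Δ.allIn_point) (Δ.cfg v _ true Δ.allIn_point))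

include hR hρ ha0 in
theorem conn_false (s : Δ.A) (v w : Δ.Val) (hv : Δ.Hit v) (hw : Δ.Hit w)
    (hrel : ∀ σ, (Δ.η a0).r (v σ) (w σ)) : R.r (Δ.cfg s v false hv) (Δ.cfg s w false hw) := by
  classical
  have : Fintype {d : L // d ∈ S} := Fintype.ofFinite _
  -- monotone paths
  have path : ∀ (x y : Δ.Val) (hx : Δ.Hit x) (hy : Δ.Hit y), (∀ σ, (Δ.η a0).r (x σ) (y σ)) →
      (∀ T : Finset {d : L // d ∈ S}, Δ.Hit fun σ => if σ.1 ∈ T then y σ else x σ) →
      R.r (Δ.cfg s x false hx) (Δ.cfg s y false hy) := by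
    intro x y hx hy hxy hT
    have key : ∀ T : Finset {d : L // d ∈ S},
        R.r (Δ.cfg s x false hx) (Δ.cfg s _ false (hT T)) := by
      intro T
      induction T using Finset.induction_on with
      | empty =>
        have e : (fun σ : Slot S => if σ.1 ∈ (∅ : Finset {d : L // d ∈ S}) then y σ else x σ) = x := by
          simp
        convert R.iseqv.refl (Δ.cfg s x false hx) using 1
        apply Subtype.ext
        simp [cfg]
      | @insert d T hd ih =>
        refine R.iseqv.trans ih (Δ.pair_move R hR ha0 hρ s _ _ d (hT T) (hT _) ?_ ?_)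
        · intro σ hσ; simp [hσ]
        · intro i; simpa [hd] using hxy (d, i)
    have := key Finset.univ
    convert this using 2
    simp
  let z : Δ.Val := fun σ => if Δ.In v σ.1 then w σ else v σ
  have hzin : ∀ d, Δ.In z d → Δ.In v d ∧ Δ.In w d := by
    intro d hd
    by_cases h : Δ.In v d
    · exact ⟨h, fun i => by simpa [z, h] using hd i⟩
    · exact absurd (fun i => by simpa [z, h] using hd i) h
  have hz : Δ.Hit z := Δ.hit_mono (fun d hd => (hzin d hd).1) hv
  have hvz : ∀ σ, (Δ.η a0).r (v σ) (z σ) := fun σ => by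
    simp only [z]
    split
    · exact hrel σ
    · exact (Δ.η a0).iseqv.refl _
  have hzw : ∀ σ, (Δ.η a0).r (z σ) (w σ) := fun σ =>
    (Δ.η a0).iseqv.trans ((Δ.η a0).iseqv.symm (hvz σ)) (hrel σ)
  refine R.iseqv.trans (path v z hv hz hvz fun T => Δ.hit_mono (fun d hd => ?_) hv)
    (path z w hz hw hzw fun T => Δ.hit_mono (fun d hd => ?_) hw)
  · intro i
    by_cases h : d ∈ T
    · exact (hzin d fun j => by simpa [h] using hd j).1 i
    · simpa [h] using hd i
  · intro i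
    by_cases h : d ∈ T
    · simpa [h] using hd i
    · exact (hzin d fun j => by simpa [h] using hd j).2 i

open Classical in
/-- The family changing a slot of a label below `p` at a point with new coordinate `true`. -/
noncomputable def line (s : Δ.A) (v : Δ.Val) (hv : Δ.Legal v true) (σ : Slot S) (hσ : σ.1.1 ≤ p)
    (z : Δ.A) : Δ.Pt :=
  Δ.cfg s (Δ.put v σ z) (decide ((Δ.η σ.1.1).r z Δ.pt)) (by
    by_cases h : (Δ.η σ.1.1).r z Δ.pt
    · simp only [h, decide_true]
      refine ⟨fun d hd i => ?_, fun τ hτ => ?_⟩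
      · by_cases he : ((d, i) : Slot S) = σ
        · rw [he, Δ.put_same]; subst he; exact h
        · rw [Δ.put_ne _ _ he]; exact hv.1 d hd i
      · rw [Δ.put_ne _ _ fun he => hτ (by rw [he]; exact hσ)]
        exact hv.2 τ hτ
    · simp only [h, decide_false]
      refine Δ.hit_of_out hσ fun hin => h ?_
      have := hin σ.2
      rwa [Prod.mk.eta, Δ.put_same] at this)

include hR hρ in
theorem line_rel (s : Δ.A) (v : Δ.Val) (hv : Δ.Legal v true) (σ : Slot S) (hσ : σ.1.1 ≤ p)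
    {u u' : Δ.A} (h : (Δ.η a0).r u u') : R.r (Δ.line s v hv σ hσ u) (Δ.line s v hv σ hσ u') := by
  classical
  refine Δ.push R hR hρ (Δ.line s v hv σ hσ) (fun a z z' hz => ⟨(Δ.η _).iseqv.refl _, ?_, ?_⟩) h
  · intro τ
    show (Δ.η _).r (Δ.put v σ z τ) (Δ.put v σ z' τ)
    by_cases ht : τ = σ
    · subst ht; rw [Δ.put_same, Δ.put_same]; exact hz
    · rw [Δ.put_ne v z ht, Δ.put_ne v z' ht]
  · intro hp
    have hd := Δ.eta_sub (hσ.trans hp) hz
    exact decide_eq_decide.2 ⟨fun h => (Δ.η _).iseqv.trans ((Δ.η _).iseqv.symm hd) h,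
      fun h => (Δ.η _).iseqv.trans hd h⟩

include hR hρ in
theorem conn_true (s : Δ.A) (v w : Δ.Val) (hv : Δ.Legal v true) (hw : Δ.Legal w true)
    (hrel : ∀ σ, (Δ.η a0).r (v σ) (w σ)) : R.r (Δ.cfg s v true hv) (Δ.cfg s w true hw) := by
  classical
  have : Fintype (Slot S) := Fintype.ofFinite _
  have hT : ∀ T : Finset (Slot S), Δ.Legal (fun σ => if σ ∈ T then w σ else v σ) true := by
    intro T
    refine ⟨fun d hd i => ?_, fun σ hσ => ?_⟩
    · dsimp only; split
      · exact hw.1 d hd i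
      · exact hv.1 d hd i
    · dsimp only; split
      · exact hw.2 σ hσ
      · exact hv.2 σ hσ
  have key : ∀ T : Finset (Slot S), R.r (Δ.cfg s v true hv) (Δ.cfg s _ true (hT T)) := by
    intro T
    induction T using Finset.induction_on with
    | empty =>
      convert R.iseqv.refl (Δ.cfg s v true hv) using 2
      simp
    | @insert σ T hσ ih =>
      refine R.iseqv.trans ih ?_
      by_cases hd : σ.1.1 ≤ p
      · have h := Δ.line_rel R hR hρ s _ (hT T) σ hd (hrel σ)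
        have hvp : (Δ.η σ.1.1).r (v σ) Δ.pt := hv.1 σ.1 hd σ.2
        have hwp : (Δ.η σ.1.1).r (w σ) Δ.pt := hw.1 σ.1 hd σ.2
        convert h using 1
        · apply Subtype.ext
          refine Prod.ext rfl (Prod.ext ?_ (by simp [line, cfg, hvp]))
          show _ = Δ.put _ σ (v σ)
          funext τ
          by_cases ht : τ = σ
          · subst ht; rw [Δ.put_same]; simp [cfg, hσ]
          · rw [Δ.put_ne _ _ ht]; rfl
        · apply Subtype.ext
          refine Prod.ext rfl (Prod.ext ?_ (by simp [line, cfg, hwp]))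
          show _ = Δ.put _ σ (w σ)
          funext τ
          by_cases ht : τ = σ
          · subst ht; rw [Δ.put_same]; simp [cfg]
          · rw [Δ.put_ne _ _ ht]; simp [cfg, ht]
      · have e : (fun τ => if τ ∈ insert σ T then w τ else v τ) =
            (fun τ => if τ ∈ T then w τ else v τ) := by
          funext τ
          by_cases ht : τ = σ
          · subst ht; simp [hσ, hv.2 τ hd, hw.2 τ hd]
          · simp [ht]
        convert R.iseqv.refl (Δ.cfg s _ true (hT T)) using 2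
  have := key Finset.univ
  convert this using 2
  simp

include hR in
/-- A flip can be moved to every point with new coordinate `true`. -/
theorem transport {x y : Δ.Pt} (hxy : R.r x y) (hx : x.1.2.2 = true) (hy : y.1.2.2 = false)
    (s : Δ.A) (v : Δ.Val) (hv : Δ.Legal v true) :
    ∃ z : Δ.Pt, z.1.2.2 = false ∧ R.r (Δ.cfg s v true hv) z := by
  classical
  have hxl : Δ.Legal x.1.2.1 true := hx ▸ x.2
  choose g hg1 hg2 using fun σ : Slot S => Δ.homog (x.1.2.1 σ) (v σ)
  let G : Δ.Val → Δ.Val := fun u σ => if σ.1.1 ≤ p then g σ (u σ) else u σ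
  have hin : ∀ u d, Δ.In (G u) d ↔ Δ.In u d := by
    intro u d
    refine forall_congr' fun i => ?_
    by_cases hd : d.1 ≤ p
    · simp only [G, if_pos hd]
      have E := Δ.η d.1
      have h1 : (Δ.η d.1).r (g (d, i) Δ.pt) Δ.pt := by
        have := (hg2 (d, i) d.1 (kap_self d.2) _ _
          ((Δ.η d.1).iseqv.symm (hxl.1 d hd i))).1
        rw [hg1] at this
        exact (Δ.η d.1).iseqv.trans this (hv.1 d hd i)
      constructor
      · intro h
        have := (hg2 (d, i) d.1 (kap_self d.2) _ _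
          ((Δ.η d.1).iseqv.trans h ((Δ.η d.1).iseqv.symm h1))).2
        simpa using this
      · intro h
        exact (Δ.η d.1).iseqv.trans (hg2 (d, i) d.1 (kap_self d.2) _ _ h).1 h1
    · simp [G, hd]
  have hlegal : ∀ (u : Δ.Val) (b : Bool), Δ.Legal u b → Δ.Legal (G u) b := by
    intro u b hu
    cases b
    · exact Δ.hit_mono (fun d hd => (hin u d).1 hd) hu
    · exact ⟨fun d hd => (hin u d).2 (hu.1 d hd), fun σ hσ => by simp [G, hσ, hu.2 σ hσ]⟩
  let F : Δ.Pt → Δ.Pt := fun u => Δ.cfg s (G u.1.2.1) u.1.2.2 (hlegal _ _ u.2)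
  have hF : Δ.Pres F := by
    intro a u u' hu
    refine ⟨(Δ.η _).iseqv.refl _, fun σ => ?_, hu.2.2⟩
    show (Δ.η _).r (G u.1.2.1 σ) (G u'.1.2.1 σ)
    simp only [G]
    split
    · exact (hg2 σ _ kap_kap _ _ (hu.2.1 σ)).1
    · exact hu.2.1 σ
  refine ⟨F y, hy, ?_⟩
  have e : F x = Δ.cfg s v true hv := by
    apply Subtype.ext
    refine Prod.ext rfl (Prod.ext ?_ hx)
    funext σ
    show G x.1.2.1 σ = v σ
    by_cases hσ : σ.1.1 ≤ p
    · simp [G, hσ, hg1]
    · simp [G, hσ, hxl.2 σ hσ, hv.2 σ hσ]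
  rw [← e]
  exact hR F hF x y hxy

end Connect

theorem representable_insert (Δ : Data S p)
    (hsrc : ∀ a, kap S a = a → kap S p ≤ a → kap S (a ⊔ p) = a) :
    Representable (Span (insert p S))ᵒᵈ := by
  classical
  have := Δ.finite_pt
  let H : Type := {f : Δ.Pt → Δ.Pt // Δ.Pres f}
  let op : H → (Fin 1 → Δ.Pt) → Δ.Pt := fun f v => f.1 (v 0)
  have hth : ∀ a (f : H), Compat (op f) (Δ.theta a) := fun a f v w hvw => f.2 a _ _ (hvw 0)
  let F : (Span (insert p S))ᵒᵈ → {R : Setoid Δ.Pt // ∀ f, Compat (op f) R} :=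
    fun a => ⟨Δ.theta (OrderDual.ofDual a).1, hth _⟩
  have hmono : ∀ a b : L, b ≤ a → Δ.theta a ≤ Δ.theta b := by
    intro a b h x y hxy
    have hle := (Δ.anti (kap S a) (kap S b) kap_kap kap_kap).2 (kap_mono h)
    exact ⟨hle hxy.1, fun σ => hle (hxy.2.1 σ), fun hp => hxy.2.2 (hp.trans h)⟩
  have hle : ∀ a b, F a ≤ F b ↔ a ≤ b := by
    intro a b
    refine ⟨fun h => ?_, fun h => hmono _ _ h⟩
    set a' := (OrderDual.ofDual a).1
    set b' := (OrderDual.ofDual b).1
    show b' ≤ a'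
    have h' : Δ.theta a' ≤ Δ.theta b' := h
    have h1 : kap S b' ≤ kap S a' := by
      refine (Δ.anti _ _ kap_kap kap_kap).1 fun u u' hu => ?_
      exact (h' (x := Δ.cfg u _ true Δ.allIn_point) (y := Δ.cfg u' _ true Δ.allIn_point)
        ⟨hu, fun _ => (Δ.η _).iseqv.refl _, fun _ => rfl⟩).1
    refine le_of_eq_of_le (isLUB_iff.1 (OrderDual.ofDual b).2).symm ?_
    refine kap_le_iff.2 fun q hq hqb => ?_
    rcases Set.mem_insert_iff.1 hq with hqp | hqS
    · rw [hqp] at hqb ⊢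
      by_contra hpa
      let v : Δ.Val := fun σ =>
        if h : ¬ σ.1.1 ≤ kap S a' then (Δ.partner h Δ.pt).choose else Δ.pt
      have hv : Δ.Hit v := by
        rintro ⟨-, h2⟩
        refine hpa (h2.trans ((Δ.inSup_le (b := kap S a') fun d hd => ?_).trans kap_le))
        by_contra hd'
        have := hd true
        simp only [v, dif_pos hd'] at this
        exact (Δ.partner hd' Δ.pt).choose_spec.2 ((Δ.η d.1).iseqv.symm this)
      have hrel : (Δ.theta a').r (Δ.cfg Δ.pt _ true Δ.allIn_point) (Δ.cfg Δ.pt v false hv) := by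
        refine ⟨(Δ.η _).iseqv.refl _, fun σ => ?_, fun hp => absurd hp hpa⟩
        show (Δ.η _).r Δ.pt (v σ)
        simp only [v]
        split
        · next h => exact (Δ.partner h Δ.pt).choose_spec.1
        · exact (Δ.η _).iseqv.refl _
      exact absurd ((h' hrel).2.2 hqb) (by simp [cfg])
    · exact (le_kap hqS hqb).trans (h1.trans kap_le)
  have hsurj : Surjective F := by
    rintro ⟨R, hR'⟩
    have hR : ∀ f, Δ.Pres f → ∀ x y, R.r x y → R.r (f x) (f y) := fun f hf x y h =>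
      hR' ⟨f, hf⟩ (fun _ => x) (fun _ => y) (fun _ => h)
    let ρ : Setoid Δ.A :=
      { r := fun u v => R.r (Δ.cfg u _ true Δ.allIn_point) (Δ.cfg v _ true Δ.allIn_point)
        iseqv := ⟨fun _ => R.iseqv.refl _, fun h => R.iseqv.symm h,
          fun h h' => R.iseqv.trans h h'⟩ }
    obtain ⟨a0, ha0, hρ0⟩ := Δ.onto ρ fun φ hφ x y hxy =>
      hR (fun z => Δ.cfg (φ z.1.1) _ true Δ.allIn_point)
        (fun a _ _ h => ⟨hφ _ kap_kap _ _ h.1, fun _ => (Δ.η _).iseqv.refl _, fun _ => rfl⟩) _ _ hxy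
    have hρ : ∀ u v, (Δ.η a0).r u v ↔
        R.r (Δ.cfg u _ true Δ.allIn_point) (Δ.cfg v _ true Δ.allIn_point) :=
      fun u v => by rw [← hρ0]; rfl
    have same : ∀ x y : Δ.Pt, (Δ.η a0).r x.1.1 y.1.1 →
        (∀ σ, (Δ.η a0).r (x.1.2.1 σ) (y.1.2.1 σ)) → x.1.2.2 = y.1.2.2 → R.r x y := by
      rintro ⟨⟨s, v, b⟩, hv⟩ ⟨⟨s', w, b'⟩, hw⟩ hs hrel rfl
      refine R.iseqv.trans (Δ.move_s R hR hρ hs v b hv) ?_
      cases b
      · exact Δ.conn_false R hR ha0 hρ s' v w hv hw hrel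
      · exact Δ.conn_true R hR hρ s' v w hv hw hrel
    by_cases hsep : ∀ x y, R.r x y → x.1.2.2 = y.1.2.2
    · have hkp : kap S p ≤ a0 := by
        refine kap_le_iff.2 fun q hq hqp => ?_
        by_contra hq'
        have hq'' : ¬ q ≤ kap S a0 := by rwa [ha0]
        obtain ⟨w, hw1, hw2⟩ := Δ.partner (d := ⟨q, hq⟩) hq'' Δ.pt
        rw [ha0] at hw1
        have := hsep _ _ (Δ.line_rel R hR hρ Δ.pt _ Δ.allIn_point (⟨q, hq⟩, true) hqp hw1)
        simp only [line, cfg, decide_eq_decide] at this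
        exact hw2 ((Δ.η q).iseqv.symm (this.1 ((Δ.η q).iseqv.refl _)))
      have ha : IsLUB {x | x ∈ insert p S ∧ x ≤ a0 ⊔ p} (a0 ⊔ p) := by
        refine isLUB_iff.2 (le_antisymm kap_le (sup_le ?_ (le_kap (Set.mem_insert _ _) le_sup_right)))
        conv_lhs => rw [← ha0]
        exact kap_le_iff.2 fun q hq hqa => le_kap (Set.mem_insert_of_mem _ hq) (hqa.trans le_sup_left)
      refine ⟨OrderDual.toDual ⟨a0 ⊔ p, ha⟩, Subtype.ext (Setoid.ext fun x y => ?_)⟩
      show (Δ.theta (a0 ⊔ p)).r x y ↔ R.r x y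
      constructor
      · rintro ⟨hs, hrel, hb⟩
        rw [hsrc a0 ha0 hkp] at hs hrel
        exact same x y hs hrel (hb le_sup_right)
      · intro h
        refine ⟨?_, ?_, fun _ => hsep x y h⟩ <;> rw [hsrc a0 ha0 hkp]
        exacts [(Δ.coord R hR hρ h).1, (Δ.coord R hR hρ h).2]
    · push Not at hsep
      obtain ⟨x0, y0, h0, hne⟩ := hsep
      obtain ⟨x1, y1, h1, hx1, hy1⟩ :
          ∃ x y, R.r x y ∧ x.1.2.2 = true ∧ y.1.2.2 = false := by
        cases hx : x0.1.2.2 <;> cases hy : y0.1.2.2 <;> simp_all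
        · exact ⟨y0, x0, R.iseqv.symm h0, hy, hx⟩
        · exact ⟨x0, y0, h0, hx, hy⟩
      have hp0 : ¬ p ≤ a0 := by
        intro hp
        have hxl : Δ.Legal x1.1.2.1 true := hx1 ▸ x1.2
        have hyl : Δ.Hit y1.1.2.1 := by have := y1.2; rwa [hy1] at this
        have hin : ∀ d : {d : L // d ∈ S}, d.1 ≤ a0 → Δ.In y1.1.2.1 d := by
          intro d hd i
          have h2 := (Δ.η d.1).iseqv.symm
            (Δ.eta_sub (x := x1.1.2.1 (d, i)) (y := y1.1.2.1 (d, i)) hd (by rw [ha0]; exact (Δ.coord R hR hρ h1).2 (d, i)))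
          refine (Δ.η d.1).iseqv.trans h2 ?_
          by_cases hdp : d.1 ≤ p
          · exact hxl.1 d hdp i
          · rw [hxl.2 (d, i) hdp]
        refine hyl ⟨fun d hd => hin d (hd.trans hp), hp.trans ?_⟩
        conv_lhs => rw [← ha0]
        exact kap_le_iff.2 fun q hq hqa => Δ.le_inSup (hin ⟨q, hq⟩ hqa)
      have ha : IsLUB {x | x ∈ insert p S ∧ x ≤ a0} a0 := by
        refine isLUB_iff.2 (le_antisymm kap_le ?_)
        conv_lhs => rw [← ha0]
        exact kap_le_iff.2 fun q hq hqa => le_kap (Set.mem_insert_of_mem _ hq) hqa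
      refine ⟨OrderDual.toDual ⟨a0, ha⟩, Subtype.ext (Setoid.ext fun x y => ?_)⟩
      show (Δ.theta a0).r x y ↔ R.r x y
      have cross : ∀ x y : Δ.Pt, (Δ.η a0).r x.1.1 y.1.1 →
          (∀ σ, (Δ.η a0).r (x.1.2.1 σ) (y.1.2.1 σ)) → x.1.2.2 = true → y.1.2.2 = false →
          R.r x y := by
        rintro ⟨⟨s, v, b⟩, hv⟩ y hs hrel hb hby
        obtain rfl : b = true := hb
        obtain ⟨z, hz, hxz⟩ := Δ.transport R hR h1 hx1 hy1 s v hv
        have hc := Δ.coord R hR hρ hxz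
        exact R.iseqv.trans hxz (same z y ((Δ.η a0).iseqv.trans ((Δ.η a0).iseqv.symm hc.1) hs)
          (fun σ => (Δ.η a0).iseqv.trans ((Δ.η a0).iseqv.symm (hc.2 σ)) (hrel σ))
          (hz.trans hby.symm))
      constructor
      · rintro ⟨hs, hrel, -⟩
        rw [ha0] at hs hrel
        cases hx : x.1.2.2 <;> cases hy : y.1.2.2
        · exact same x y hs hrel (hx.trans hy.symm)
        · exact R.iseqv.symm (cross y x ((Δ.η a0).iseqv.symm hs)
            (fun σ => (Δ.η a0).iseqv.symm (hrel σ)) hy hx)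
        · exact cross x y hs hrel hx hy
        · exact same x y hs hrel (hx.trans hy.symm)
      · intro h
        refine ⟨?_, ?_, fun hp => absurd hp hp0⟩ <;> rw [ha0]
        exacts [(Δ.coord R hR hρ h).1, (Δ.coord R hR hρ h).2]
  exact representable_of_family (fun _ : H => 1) op
    (RelIso.ofSurjective (OrderEmbedding.ofMapLEIff F hle) hsurj)

end Data

/-- One step preserves representability. -/
theorem step {S : Set L} {p : L} (hsrc : ∀ a, kap S a = a → kap S p ≤ a → kap S (a ⊔ p) = a)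
    (hS : Representable (Span S)) : Representable (Span (insert p S)) := by
  classical
  obtain ⟨Q, hQ, hQ', ι, _, ar, ops, e, hom⟩ := Kurzweil.exists_homogeneous_dual hS
  let el : ∀ a, kap S a = a → (Span S)ᵒᵈ := fun a ha => OrderDual.toDual ⟨a, isLUB_iff.2 ha⟩
  let η : L → Setoid Q := fun a => if h : kap S a = a then (e (el a h)).1 else ⊥
  let Δ : Data S p :=
    { A := Q
      fin := hQ
      pt := Classical.arbitrary Q
      η := η
      anti := fun a b ha hb => by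
        simp only [η, dif_pos ha, dif_pos hb]
        exact (e.le_iff_le (x := el a ha) (y := el b hb))
      onto := fun r hr => by
        have hc : ∀ i, Compat (ops i) r := fun i => compat_of_update _ _ fun x m u v huv => by
          refine hr (fun z => ops i (update x m z)) (fun a ha p q hpq => ?_) u v huv
          rw [show η a = (e (el a ha)).1 from dif_pos ha] at hpq ⊢
          refine (e (el a ha)).2 i _ _ fun j => ?_
          by_cases hj : j = m
          · subst hj; simpa using hpq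
          · simpa [hj] using (e (el a ha)).1.iseqv.refl (x j)
        set c : Span S := OrderDual.ofDual (e.symm ⟨r, hc⟩)
        have hcc : kap S c.1 = c.1 := isLUB_iff.1 c.2
        refine ⟨c.1, hcc, ?_⟩
        simp only [η, dif_pos hcc]
        show r = (e (e.symm ⟨r, hc⟩)).1
        rw [OrderIso.apply_symm_apply]
      homog := fun u v => by
        obtain ⟨g, hg, hg'⟩ := hom u v
        refine ⟨g, hg, fun a ha x y hxy => ?_⟩
        rw [show η a = (e (el a ha)).1 from dif_pos ha] at hxy ⊢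
        exact hg' _ (e (el a ha)).2 x y hxy }
  exact Kurzweil.representable_dual (Data.representable_insert Δ hsrc)

end Vale.Agent.P183.Step
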