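import Mathlib
import Vale.Agent.P183.Step

/-!
Iterating the step: lattices lower bounded over a representable one, and the reduction of the
finite lattice representation problem to source-free lattices.
-/

namespace Vale.Agent.P183.Main

open Function

variable {L : Type} [Lattice L] [Finite L] [OrderBot L]

theorem step_hyp {S : Set L} {p : L} (hS : ∀ q ∈ S, SupIrred q) (hp : SupIrred p) (hpS : p ∉ S)
    (hclosed : ∀ q r, q ∈ S → JoinDep q r → r ∈ insert p S)
    (hsource : ∀ q ∈ S, ¬ JoinDep q p) :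
    ∀ a, Step.kap S a = a → Step.kap S p ≤ a → Step.kap S (a ⊔ p) = a := by
  classical
  intro a ha hpa
  refine le_antisymm (Step.kap_le_iff.2 fun q hq hqa => ?_) ?_
  · by_contra hn
    have hqp : ¬ q ≤ p := fun h => hn ((Step.le_kap hq h).trans hpa)
    obtain ⟨C, hC, hC'⟩ := Tree.exists_cov (hS q hq) {a, p} (by simpa using hqa)
      (by simp [hn, hqp])
    apply hn
    refine hC.2.1.trans (Finset.sup_le fun c hc => ?_)
    have hcS : c ∈ S := by
      rcases Set.mem_insert_iff.1 (hclosed q c hq (hC.1 c hc)) with rfl | h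
      · exact absurd (hC.1 c hc) (hsource q hq)
      · exact h
    obtain ⟨e, he, hce⟩ := hC' c hc
    rcases Finset.mem_insert.1 he with rfl | he
    · exact hce
    · rw [Finset.mem_singleton] at he
      exact (Step.le_kap hcS (he ▸ hce)).trans hpa
  · conv_lhs => rw [← ha]
    exact Step.kap_mono le_sup_left

/-- Representability climbs along an acyclic part of `D`. -/
theorem climb (J : Set L) (hJ : ∀ q ∈ J, SupIrred q)
    (hclosed : ∀ q r, q ∈ J → JoinDep q r → r ∈ J)
    (hacyc : ∀ q, q ∉ J → ¬ Relation.TransGen (JoinDep (L := L)) q q)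
    (hrep : Representable (SpanOf J)) :
    ∀ (n : ℕ) (S : Set L), (S \ J).ncard = n → J ⊆ S → (∀ q ∈ S, SupIrred q) →
      (∀ q r, q ∈ S → JoinDep q r → r ∈ S) → Representable (SpanOf S) := by
  intro n
  induction n with
  | zero =>
    intro S hn hsub _ _
    have he : S \ J = ∅ := (Set.ncard_eq_zero).1 hn
    have : S = J := Set.Subset.antisymm (Set.diff_eq_empty.1 he) hsub
    subst this
    exact hrep
  | succ n ih =>
    intro S hn hsub hirr hcl
    -- a member of `S \ J` on which no member of `S` depends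
    obtain ⟨p, hp, hsource⟩ : ∃ p ∈ S \ J, ∀ q ∈ S, ¬ JoinDep q p := by
      by_contra hc
      push Not at hc
      have hpred : ∀ p : {p : L // p ∈ S \ J}, ∃ q : {p : L // p ∈ S \ J}, JoinDep q.1 p.1 := by
        intro p
        obtain ⟨q, hq, hqp⟩ := hc p.1 p.2
        exact ⟨⟨q, hq, fun hqJ => p.2.2 (hclosed q p.1 hqJ hqp)⟩, hqp⟩
      choose f hf using hpred
      have hne : (S \ J).Nonempty := Set.nonempty_of_ncard_ne_zero (by omega)
      obtain ⟨p0, hp0⟩ := hne
      have key : ∀ (k i : ℕ), Relation.TransGen (JoinDep (L := L))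
          (f^[i + k + 1] ⟨p0, hp0⟩).1 (f^[i] ⟨p0, hp0⟩).1 := by
        intro k
        induction k with
        | zero =>
          intro i
          rw [Nat.add_zero, Function.iterate_succ_apply']
          exact .single (hf _)
        | succ k ihk =>
          intro i
          rw [show i + (k + 1) + 1 = (i + k + 1) + 1 from rfl, Function.iterate_succ_apply']
          exact .head (hf _) (ihk i)
      obtain ⟨i, j, hij, hfe⟩ := Finite.exists_ne_map_eq_of_infinite
        fun i : ℕ => f^[i] (⟨p0, hp0⟩ : {p : L // p ∈ S \ J})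
      rcases Nat.lt_or_gt_of_ne hij with h | h
      · have := key (j - i - 1) i
        rw [show i + (j - i - 1) + 1 = j by omega, ← hfe] at this
        exact hacyc _ (f^[i] ⟨p0, hp0⟩).2.2 this
      · have := key (i - j - 1) j
        rw [show j + (i - j - 1) + 1 = i by omega, hfe] at this
        exact hacyc _ (f^[j] ⟨p0, hp0⟩).2.2 this
    have hcard : ((S \ {p}) \ J).ncard = n := by
      have : (S \ {p}) \ J = (S \ J) \ {p} := by ext x; simp; tauto
      rw [this, Set.ncard_sdiff_singleton_of_mem hp, hn]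
      omega
    have hcl' : ∀ q r, q ∈ S \ {p} → JoinDep q r → r ∈ S \ {p} := fun q r hq hqr =>
      ⟨hcl q r hq.1 hqr, fun hr => hsource q hq.1 (Set.mem_singleton_iff.1 hr ▸ hqr)⟩
    have hrep' := ih (S \ {p}) hcard (fun x hx => ⟨hsub hx, fun h => hp.2 (Set.mem_singleton_iff.1 h ▸ hx)⟩)
      (fun q hq => hirr q hq.1) hcl'
    have hins : insert p (S \ {p}) = S := by
      rw [Set.insert_sdiff_singleton, Set.insert_eq_self.2 hp.1]
    have hstep := Step.step (step_hyp (S := S \ {p}) (p := p) (fun q hq => hirr q hq.1)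
      (hirr p hp.1) (fun h => h.2 rfl) (fun q r hq hqr => hins.symm ▸ hcl q r hq.1 hqr)
      fun q hq => hsource q hq.1) hrep'
    rw [hins] at hstep
    exact hstep

theorem representable_of_span (J : Set L) (hJ : ∀ q ∈ J, SupIrred q)
    (hclosed : ∀ q r, q ∈ J → JoinDep q r → r ∈ J)
    (hacyc : ∀ q, q ∉ J → ¬ Relation.TransGen (JoinDep (L := L)) q q)
    (hrep : Representable (SpanOf J)) : Representable L := by
  have h := climb J hJ hclosed hacyc hrep _ {q | SupIrred q} rfl hJ (fun q hq => hq)
    (fun q r _ hqr => hqr.2.1)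
  obtain ⟨A, hA, hA', n, ar, op, ⟨e⟩⟩ := h
  have hlub : ∀ a : L, IsLUB {q | q ∈ {q : L | SupIrred q} ∧ q ≤ a} a := by
    intro a
    refine Step.isLUB_iff.2 (le_antisymm Step.kap_le ?_)
    obtain ⟨s, hs, hs'⟩ := exists_supIrred_decomposition a
    conv_lhs => rw [← hs]
    exact Finset.sup_le fun b hb => Step.le_kap (hs' hb) ((Finset.le_sup (f := id) hb).trans_eq hs)
  let i : L ≃o SpanOf {q : L | SupIrred q} :=
    { toFun := fun a => ⟨a, hlub a⟩
      invFun := fun a => a.1
      left_inv := fun _ => rfl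
      right_inv := fun _ => rfl
      map_rel_iff' := Iff.rfl }
  exact ⟨A, hA, hA', n, ar, op, ⟨i.trans e⟩⟩

theorem representable_span_empty : Representable (SpanOf (∅ : Set L)) := by
  have hbot : ∀ a : SpanOf (∅ : Set L), a.1 = ⊥ := fun a =>
    le_bot_iff.1 (a.2.2 (fun x hx => absurd hx.1 (Set.notMem_empty x)))
  have hs : ∀ r r' : Setoid Unit, r = r' := fun r r' => Setoid.ext fun a b =>
    ⟨fun _ => r'.iseqv.refl a, fun _ => r.iseqv.refl a⟩
  refine ⟨Unit, inferInstance, inferInstance, 0, Fin.elim0, fun i => i.elim0, ⟨?_⟩⟩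
  exact
    { toFun := fun _ => ⟨⊥, fun i => i.elim0⟩
      invFun := fun _ => ⟨⊥, fun x hx => absurd hx.1 (Set.notMem_empty x), fun _ _ => bot_le⟩
      left_inv := fun a => Subtype.ext (hbot a).symm
      right_inv := fun r => Subtype.ext (hs _ _)
      map_rel_iff' := fun {a b} => ⟨fun _ => (hbot a).trans_le bot_le, fun _ => le_refl _⟩ }

/-- The span of a set is a lattice. -/
noncomputable abbrev spanLattice (J : Set L) : Lattice (SpanOf J) :=
  { (inferInstance : PartialOrder (SpanOf J)) with
    sup := fun a b => ⟨a.1 ⊔ b.1, Step.isLUB_iff.2 (le_antisymm Step.kap_le (sup_le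
      ((Step.isLUB_iff.1 a.2).symm.trans_le (Step.kap_mono le_sup_left))
      ((Step.isLUB_iff.1 b.2).symm.trans_le (Step.kap_mono le_sup_right))))⟩
    le_sup_left := fun a b => (le_sup_left : a.1 ≤ a.1 ⊔ b.1)
    le_sup_right := fun a b => (le_sup_right : b.1 ≤ a.1 ⊔ b.1)
    sup_le := fun a b c h h' => (sup_le h h' : a.1 ⊔ b.1 ≤ c.1)
    inf := fun a b => ⟨Step.kap J (a.1 ⊓ b.1), Step.isLUB_iff.2 Step.kap_kap⟩
    inf_le_left := fun a b => (Step.kap_le.trans inf_le_left : Step.kap J (a.1 ⊓ b.1) ≤ a.1)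
    inf_le_right := fun a b => (Step.kap_le.trans inf_le_right : Step.kap J (a.1 ⊓ b.1) ≤ b.1)
    le_inf := fun a b c h h' => ((Step.isLUB_iff.1 a.2).symm.trans_le
      (Step.kap_mono (le_inf h h')) : a.1 ≤ Step.kap J (b.1 ⊓ c.1)) }

omit [OrderBot L]

theorem reduction
    (h : ∀ (M : Type) [Lattice M] [Finite M] [Nonempty M],
      SourceFree M → SourceFree Mᵒᵈ → Representable M) :
    ∀ (n : ℕ) (M : Type) [Lattice M] [Finite M] [Nonempty M], Nat.card M = n → Representable M := by
  intro n
  induction n using Nat.strong_induction_on with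
  | _ n ih =>
    have hsrc : ∀ (M : Type) [Lattice M] [Finite M] [Nonempty M], Nat.card M = n →
        ¬ SourceFree M → Representable M := by
      intro M _ _ _ hn hsf
      cases nonempty_fintype M
      let _ : OrderBot M := Fintype.toOrderBot M
      simp only [SourceFree, not_forall, not_exists] at hsf
      obtain ⟨p, hp, hnone⟩ := hsf
      let J : Set M := {q | SupIrred q ∧ q ≠ p}
      let _ : Lattice (SpanOf J) := spanLattice J
      have hne : ¬ IsLUB {q | q ∈ J ∧ q ≤ p} p := by
        intro h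
        have h1 := Step.isLUB_iff.1 h
        obtain ⟨q, hq, hqp⟩ := hp.finset_sup_eq h1
        exact ((Set.Finite.mem_toFinset _).1 hq).1.2 hqp
      have : Nonempty (SpanOf J) :=
        ⟨⟨⊥, fun x hx => hx.2, fun _ _ => bot_le⟩⟩
      have hlt : Nat.card (SpanOf J) < n := by
        rw [← hn]
        exact Finite.card_subtype_lt hne
      refine representable_of_span J (fun q hq => hq.1)
        (fun q r _ hqr => ⟨hqr.2.1, fun hr => hnone q (hr ▸ hqr)⟩) (fun q hq hcyc => ?_)
        (ih _ hlt (SpanOf J) rfl)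
      obtain ⟨b, -, hb⟩ := Relation.TransGen.tail'_iff.1 hcyc
      have : q = p := by_contra fun hne' => hq ⟨hb.2.1, hne'⟩
      exact hnone b (this ▸ hb)
    intro M _ _ _ hn
    by_cases h1 : SourceFree M
    · by_cases h2 : SourceFree Mᵒᵈ
      · exact h M h1 h2
      · exact Kurzweil.representable_dual (hsrc Mᵒᵈ hn h2)
    · exact hsrc M hn h1

end Vale.Agent.P183.Main
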